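import Crest.Agent.N221.C.Defs
import Crest.Agent.R241.D5b
import Crest.Agent.R241.D4Loc
import Crest.Agent.R241.D3c

/-!
Row 221, block C (helper85): existence of the universal cover `Cov G`.
-/

set_option autoImplicit false
set_option linter.unusedSectionVars false
set_option linter.unusedVariables false

open Set Filter Topology
open scoped ContDiff RealInnerProductSpace NNReal
open Crest.GeometryTopology.Submanifold
open Crest.Agent.R241.DDefs Crest.Agent.R241.D2 Crest.Agent.Lib.ODEFlow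
open Crest.Agent.R241 Crest.Agent.R241.D4Lift Crest.Agent.R241.D4Top Crest.Agent.R241.D4Loc

noncomputable section

namespace Crest.Agent.N221.Ex

section inv

variable {E : Type*} [NormedAddCommGroup E] [NormedSpace ℝ E] [FiniteDimensional ℝ E] {f : E → E}

lemma exists_chart (hf : ContDiff ℝ ∞ f) {x : E} (hi : Function.Injective (fderiv ℝ f x)) :
    ∃ e : OpenPartialHomeomorph E E, x ∈ e.source ∧ (e : E → E) = f ∧
      ContDiffAt ℝ ∞ e.symm (f x) := by
  have := FiniteDimensional.complete ℝ E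
  let L : E ≃L[ℝ] E :=
    (LinearEquiv.ofInjectiveEndo (fderiv ℝ f x).toLinearMap hi).toContinuousLinearEquiv
  have hL : HasFDerivAt f (L : E →L[ℝ] E) x := by
    have h2 : (L : E →L[ℝ] E) = fderiv ℝ f x := ContinuousLinearMap.ext fun v => rfl
    rw [h2]
    exact (hf.differentiable (by simp) x).hasFDerivAt
  have hn0 : (∞ : WithTop ℕ∞) ≠ 0 := by simp
  exact ⟨hf.contDiffAt.toOpenPartialHomeomorph f hL hn0,
    hf.contDiffAt.mem_toOpenPartialHomeomorph_source hL hn0, rfl,
    hf.contDiffAt.to_localInverse hL hn0⟩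

lemma isLocalHomeo (hf : ContDiff ℝ ∞ f) (hi : ∀ x, Function.Injective (fderiv ℝ f x)) :
    IsLocalHomeomorph f := fun x => by
  obtain ⟨e, h1, h2, -⟩ := exists_chart hf (hi x)
  exact ⟨e, h1, h2.symm⟩

lemma contDiff_inv (hf : ContDiff ℝ ∞ f) (hi : ∀ x, Function.Injective (fderiv ℝ f x))
    {g : E → E} (h1 : ∀ x, g (f x) = x) (h2 : ∀ y, f (g y) = y) : ContDiff ℝ ∞ g := by
  rw [contDiff_iff_contDiffAt]
  intro y
  obtain ⟨e, hx, he, hs⟩ := exists_chart hf (hi (g y))
  rw [h2] at hs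
  refine hs.congr_of_eventuallyEq ?_
  have hy : y ∈ e.target := by
    have := e.map_source hx
    rwa [he, h2] at this
  filter_upwards [e.open_target.mem_nhds hy] with z hz
  have h3 := e.right_inv hz
  rw [he] at h3
  rw [← h1 (e.symm z), h3]

end inv

variable {n N : ℕ} {a : ℝ} {S : Set (Euc N)} (G : Geo n N (-(a ^ 2)) S)

/-- an expanding smooth map into `S` -/
structure Pr (S : Set (Euc N)) (π : Euc n → Euc N) : Prop where
  sub : IsSubmanifold n N S
  sm : ContDiff ℝ ∞ π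
  mem : ∀ x, π x ∈ S
  exp : ∀ x w, ‖w‖ ≤ ‖fderiv ℝ π x w‖

variable {π : Euc n → Euc N} (h : Pr S π)
include h

lemma inj (x : Euc n) : Function.Injective (fderiv ℝ π x) := by
  intro u w hw
  have h1 := h.exp x (u - w)
  rw [map_sub, hw, sub_self, norm_zero] at h1
  exact sub_eq_zero.1 (norm_le_zero_iff.1 h1)

lemma dmem (x w : Euc n) : fderiv ℝ π x w ∈ G.T (π x) := by
  have h1 : HasDerivAt (fun t : ℝ => x + t • w) w 0 := by
    simpa using ((hasDerivAt_id (0 : ℝ)).smul_const w).const_add x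
  have h2 : HasFDerivAt π (fderiv ℝ π x) (x + (0 : ℝ) • w) := by
    simpa using (h.sm.differentiable (by simp) x).hasFDerivAt
  have h3 := G.deriv_mem (fun t : ℝ => π (x + t • w)) _ 0
    (Eventually.of_forall fun t => h.mem _) (h2.comp_hasDerivAt (0 : ℝ) h1)
  simpa using h3

lemma dsurj (x : Euc n) {v : Euc N} (hv : v ∈ G.T (π x)) : ∃ w, fderiv ℝ π x w = v := by
  have h1 : LinearMap.range (fderiv ℝ π x).toLinearMap = G.T (π x) := by
    apply Submodule.eq_of_le_of_finrank_eq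
    · rintro _ ⟨w, rfl⟩
      exact dmem G h x w
    · rw [G.finrank_T _ (h.mem x), LinearMap.finrank_range_of_inj (inj h x)]
      simp
  rw [← h1] at hv
  exact hv

omit h in
/-- left inverse of `dπ` -/
def B (π : Euc n → Euc N) (x : Euc n) : Euc N →L[ℝ] Euc n :=
  ((fderiv ℝ π x).adjoint ∘L fderiv ℝ π x).inverse ∘L (fderiv ℝ π x).adjoint

lemma gram (x : Euc n) : ∃ e : Euc n ≃L[ℝ] Euc n,
    (e : Euc n →L[ℝ] Euc n) = (fderiv ℝ π x).adjoint ∘L fderiv ℝ π x := by
  have hi : Function.Injective ((fderiv ℝ π x).adjoint ∘L fderiv ℝ π x) := by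
    rw [injective_iff_map_eq_zero]
    intro w hw
    have h1 : ⟪((fderiv ℝ π x).adjoint ∘L fderiv ℝ π x) w, w⟫ = ‖fderiv ℝ π x w‖ ^ 2 := by
      rw [ContinuousLinearMap.comp_apply, ContinuousLinearMap.adjoint_inner_left,
        real_inner_self_eq_norm_sq]
    rw [hw, inner_zero_left] at h1
    have h2 := h.exp x w
    rw [pow_eq_zero_iff two_ne_zero |>.1 h1.symm] at h2
    exact norm_le_zero_iff.1 h2
  exact ⟨(LinearEquiv.ofInjectiveEndo
    ((fderiv ℝ π x).adjoint ∘L fderiv ℝ π x).toLinearMap hi).toContinuousLinearEquiv,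
    ContinuousLinearMap.ext fun v => rfl⟩

lemma B_d (x w : Euc n) : B π x (fderiv ℝ π x w) = w := by
  obtain ⟨e, he⟩ := gram h x
  have h1 : (fderiv ℝ π x).adjoint (fderiv ℝ π x w) = e w := by
    rw [← ContinuousLinearEquiv.coe_coe e, he]; rfl
  rw [B, ← he, ContinuousLinearMap.inverse_equiv, ContinuousLinearMap.comp_apply, h1]
  simp

lemma contDiff_d : ContDiff ℝ ∞ (fderiv ℝ π) := h.sm.fderiv_right (by simp)

lemma contDiff_B : ContDiff ℝ ∞ (B π) := by
  have h1 : ContDiff ℝ ∞ fun x => (fderiv ℝ π x).adjoint :=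
    (ContinuousLinearMap.adjoint (𝕜 := ℝ) (E := Euc n)
      (F := Euc N)).toContinuousLinearEquiv.contDiff.comp (contDiff_d h)
  refine ContDiff.clm_comp ?_ h1
  rw [contDiff_iff_contDiffAt]
  intro x
  obtain ⟨e, he⟩ := gram h x
  have h2 : ContDiffAt ℝ ∞ ContinuousLinearMap.inverse
      ((fderiv ℝ π x).adjoint ∘L fderiv ℝ π x) := he ▸ contDiffAt_map_inverse e
  exact ContDiffAt.comp (f := fun x => (fderiv ℝ π x).adjoint ∘L fderiv ℝ π x) x h2
    (h1.clm_comp (contDiff_d h)).contDiffAt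

omit h in
/-- the lifted geodesic field -/
def Xt (π : Euc n → Euc N) (z : Euc n × Euc N) : Euc n × Euc N :=
  (B π z.1 z.2, fderiv ℝ G.P (π z.1) z.2 z.2)

lemma contDiff_Xt : ContDiff ℝ ∞ (Xt G π) := by
  have h1 : ContDiff ℝ ∞ (fderiv ℝ G.P) := G.contDiff_P.fderiv_right (by simp)
  exact (((contDiff_B h).comp contDiff_fst).clm_apply contDiff_snd).prodMk
    (((h1.comp (h.sm.comp contDiff_fst)).clm_apply contDiff_snd).clm_apply contDiff_snd)

lemma lift {x : Euc n} {v : Euc N} (hv : v ∈ G.T (π x)) :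
    ((x, v), (1 : ℝ)) ∈ dom (Xt G π) univ ∧
      π (flow (Xt G π) univ ((x, v), 1)).1 = Exp G (π x) v := by
  have hq : (π x, v) ∈ TS G := ⟨h.mem x, hv⟩
  have hd := fun t => hasDerivAt_fl G (complete G hq t)
  let c : ℝ → S := fun t => ⟨(fl G ((π x, v), t)).1, (fl_mem G hq t).1⟩
  have hc : LipschitzOnWith ‖v‖₊ c (Icc 0 1) := by
    have h1 := (convex_univ (𝕜 := ℝ) (E := ℝ)).lipschitzOnWith_of_nnnorm_hasDerivWithin_le
      (f := fun t => (fl G ((π x, v), t)).1) (C := ‖v‖₊)
      (fun t _ => (hda_fst (hd t)).hasDerivWithinAt) (fun t _ => by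
        rw [← NNReal.coe_le_coe]
        exact (norm_fl G hq t).le)
    exact fun s _ t _ => h1 (mem_univ s) (mem_univ t)
  obtain ⟨w, hw, hwc, hw0⟩ := exists_lift (isLocalHomeomorph_of_expanding h.sub h.sm h.mem h.exp)
    (locExp_of_expanding h.sm h.mem h.exp (C := 2) (by norm_num)) hc (w₀ := x)
    (Subtype.ext (by simp [c, fl_zero]))
  have hπ : ∀ t ∈ Icc (0 : ℝ) 1, π (w t) = (fl G ((π x, v), t)).1 := fun t ht =>
    congrArg Subtype.val (hwc t ht)
  have hdw : ∀ t ∈ Icc (0 : ℝ) 1,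
      HasDerivWithinAt w (B π (w t) (fl G ((π x, v), t)).2) (Icc 0 1) t := by
    intro t ht
    obtain ⟨R, hR, -, hR1, -⟩ := Crest.Agent.R208.local_inverse h.sub h.sm.contDiffAt
      (Eventually.of_forall h.mem) (inj h (w t))
    have hRd := (hR.differentiableAt (by simp)).hasFDerivAt
    obtain ⟨u, hu⟩ := dsurj G h (w t) (v := (fl G ((π x, v), t)).2)
      (by rw [hπ t ht]; exact (fl_mem G hq t).2)
    have h1 : fderiv ℝ R (π (w t)) (fderiv ℝ π (w t) u) = u := by
      have h2 := hRd.comp (w t) (h.sm.differentiable (by simp) (w t)).hasFDerivAt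
      have h3 : HasFDerivAt (R ∘ π) (ContinuousLinearMap.id ℝ (Euc n)) (w t) :=
        (hasFDerivAt_id (w t)).congr_of_eventuallyEq hR1
      exact congrArg (fun L : Euc n →L[ℝ] Euc n => L u) (h2.unique h3)
    rw [← hu, B_d h, ← h1, hu]
    rw [hπ t ht] at hRd ⊢
    refine (hRd.comp_hasDerivAt t (hda_fst (hd t))).hasDerivWithinAt.congr_of_eventuallyEq_of_mem
      ?_ ht
    filter_upwards [(hw.continuousOn t ht).eventually hR1, self_mem_nhdsWithin] with s h1 h2
    rw [← h1, hπ s h2]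
    rfl
  have key := flow_of_integralCurve (v := Xt G π) isOpen_univ
    ((contDiff_Xt G h).of_le (by simp)).contDiffOn
    (c := fun t => (w t, (fl G ((π x, v), t)).2)) (l := 1) (fun _ _ => mem_univ _)
    (fun t ht => by
      rw [uIcc_of_le zero_le_one] at ht ⊢
      refine (hdw t ht).prodMk ?_
      have h1 := (hda_snd (hd t)).hasDerivWithinAt (s := Icc 0 1)
      simp only [hπ t ht]
      exact h1) (s := 1) right_mem_uIcc
  simp only [hw0, fl_zero] at key
  refine ⟨key.1, ?_⟩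
  rw [key.2]
  exact hπ 1 ⟨zero_le_one, le_rfl⟩

omit h in
/-- the lifted exponential map -/
def ex (π : Euc n → Euc N) (x : Euc n) (v : Euc N) : Euc n :=
  (flow (Xt G π) univ ((x, G.P (π x) v), 1)).1

lemma contDiff_ex : ContDiff ℝ ∞ fun z : Euc n × Euc N => ex G π z.1 z.2 := by
  rw [contDiff_iff_contDiffAt]
  intro z
  have hX := contDiff_Xt G h
  have h1 := (contDiffOn_flow (n := ⊤) (by simp) isOpen_univ hX.contDiffOn).contDiffAt
    ((isOpen_dom isOpen_univ (hX.of_le (by simp)).contDiffOn).mem_nhds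
      (lift G h (x := z.1) (v := G.P (π z.1) z.2) (P_mem G (h.mem _))).1)
  have h2 : ContDiff ℝ ∞ fun z : Euc n × Euc N => ((z.1, G.P (π z.1) z.2), (1 : ℝ)) :=
    (contDiff_fst.prodMk ((G.contDiff_P.comp (h.sm.comp contDiff_fst)).clm_apply
      contDiff_snd)).prodMk contDiff_const
  exact (ContDiffAt.comp (f := fun z : Euc n × Euc N => ((z.1, G.P (π z.1) z.2), (1 : ℝ)))
    z h1 h2.contDiffAt).fst

lemma pr_ex {x : Euc n} {v : Euc N} (hv : v ∈ G.T (π x)) : π (ex G π x v) = Exp G (π x) v := by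
  rw [ex, (P_eq_self G (h.mem x)).1 hv]
  exact (lift G h hv).2

lemma ex_zero (x : Euc n) : ex G π x 0 = x := by
  rw [ex, map_zero, (flow_of_zero isOpen_univ ((contDiff_Xt G h).of_le (by simp)).contDiffOn
    (mem_univ (x, (0 : Euc N))) (by simp [Xt]) 1).2]

/-- an expanding map into the "cover" is bijective -/
lemma bij {e : Euc n → Euc n} (he : ContDiff ℝ ∞ e) (h' : Pr S (π ∘ e)) :
    Function.Bijective e := by
  have hi : ∀ x, Function.Injective (fderiv ℝ e x) := fun x u w huw => by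
    apply inj h' x
    rw [fderiv_comp x (h.sm.differentiable (by simp) _) (he.differentiable (by simp) _)]
    simp [huw]
  let Γ := {z : Euc n × Euc N // z.2 = π z.1}
  let h0 : Euc n ≃ₜ Γ :=
    { toFun := fun x => ⟨(x, π x), rfl⟩
      invFun := fun z => z.1.1
      left_inv := fun _ => rfl
      right_inv := fun z => Subtype.ext (Prod.ext rfl z.2.symm)
      continuous_toFun := (continuous_id.prodMk h.sm.continuous).subtype_mk _
      continuous_invFun := continuous_fst.comp continuous_subtype_val }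
  have hloc := isLocalHomeo he hi
  have hE : LocExp (h0 ∘ e) 2 := fun x => by
    filter_upwards [locExp_of_expanding h'.sm h'.mem h'.exp (C := 2) (by norm_num) x] with q hq
    refine hq.trans (mul_le_mul_of_nonneg_left ?_ (by positivity))
    exact le_max_right (dist (e q.1) (e q.2)) _
  have hC : LocContr Γ := fun z => by
    refine ⟨univ, isOpen_univ, mem_univ _, fun y₀ _ =>
      ⟨fun p => h0 (h0.symm y₀ + p.1 • (h0.symm p.2 - h0.symm y₀)), ?_, fun t _ => ?_,
        fun y _ => ⟨?_, ?_, ?_⟩⟩⟩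
    · exact (h0.continuous.comp (by fun_prop)).continuousOn
    · simp only [sub_self, smul_zero, add_zero]
      exact h0.apply_symm_apply _
    · simp only [zero_smul, add_zero]
      exact h0.apply_symm_apply _
    · simp only [one_smul, add_sub_cancel]
      exact h0.apply_symm_apply _
    · have h1 : ContDiff ℝ ∞ fun t : ℝ => h0.symm y₀ + t • (h0.symm y - h0.symm y₀) := by
        fun_prop
      obtain ⟨K, hK⟩ := (h1.prodMk (h.sm.comp h1)).contDiffOn.exists_lipschitzOnWith (by simp)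
        (convex_Icc (0 : ℝ) 1) isCompact_Icc
      exact ⟨K, fun s hs t ht => hK hs ht⟩
  have hS := hasSections (h0.isLocalHomeomorph.comp hloc) hE hC
  have hS' : HasSections e := fun x => by
    obtain ⟨U, hU, hx, hτ⟩ := hS (h0 x)
    refine ⟨h0 ⁻¹' U, hU.preimage h0.continuous, hx, fun y hy => ?_⟩
    obtain ⟨τ, h1, h2, h3⟩ := hτ y hy
    exact ⟨τ ∘ h0, h1.comp h0.continuous.continuousOn fun _ h => h,
      fun z hz => h0.injective (h2 _ hz), h3⟩
  obtain ⟨k, hk⟩ := homeo_of_sections hloc hS' 0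
  rw [← funext hk]
  exact k.bijective

omit h in
lemma pr_Phi (hS : IsSubmanifold n N S) (ha : 0 ≤ a) (p : S) : Pr S (D5b.Phi G p) :=
  ⟨hS, D5b.contDiff_Phi G p, D5b.Phi_mem G p, D5b.norm_le_fderiv ha G p⟩

omit h in
/-- `(x, u) ↦ (x, ex x (dπ u))` -/
def Th (π : Euc n → Euc N) (z : Euc n × Euc n) : Euc n × Euc n :=
  (z.1, ex G π z.1 (fderiv ℝ π z.1 z.2))

lemma contDiff_Th : ContDiff ℝ ∞ (Th G π) :=
  contDiff_fst.prodMk ((contDiff_ex G h).comp
    (f := fun z : Euc n × Euc n => (z.1, fderiv ℝ π z.1 z.2))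
    (contDiff_fst.prodMk (((contDiff_d h).comp contDiff_fst).clm_apply contDiff_snd)))

lemma bij_Th (ha : 0 ≤ a) : Function.Bijective (Th G π) := by
  have key : ∀ x, Function.Bijective fun u => ex G π x (D5b.frame G ⟨π x, h.mem x⟩ u) := by
    intro x
    refine bij h ((contDiff_ex G h).comp
      (f := fun u => (x, D5b.frame G ⟨π x, h.mem x⟩ u))
      (contDiff_const.prodMk (D5b.frame G _).contDiff)) ?_
    have h1 : π ∘ (fun u => ex G π x (D5b.frame G ⟨π x, h.mem x⟩ u)) =
        D5b.Phi G ⟨π x, h.mem x⟩ :=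
      funext fun u => pr_ex G h (D5b.frame_mem G ⟨π x, h.mem x⟩ u)
    rw [h1]
    exact pr_Phi G h.sub ha _
  constructor
  · rintro ⟨x, u⟩ ⟨y, w⟩ hz
    obtain rfl : x = y := congrArg Prod.fst hz
    obtain ⟨u', hu⟩ := D5b.exists_frame_eq G ⟨π x, h.mem x⟩ (dmem G h x u)
    obtain ⟨w', hw⟩ := D5b.exists_frame_eq G ⟨π x, h.mem x⟩ (dmem G h x w)
    have h1 : u' = w' := (key x).1 (by
      show ex G π x _ = ex G π x _
      rw [hu, hw]
      exact congrArg Prod.snd hz)
    rw [inj h x (hu.symm.trans (h1 ▸ hw))]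
  · rintro ⟨x, y⟩
    obtain ⟨u, hu⟩ := (key x).2 y
    obtain ⟨w, hw⟩ := dsurj G h x (D5b.frame_mem G ⟨π x, h.mem x⟩ u)
    exact ⟨(x, w), Prod.ext rfl (by simp only [Th, hw]; exact hu)⟩

lemma inj_Th (ha : 0 ≤ a) (z : Euc n × Euc n) : Function.Injective (fderiv ℝ (Th G π) z) := by
  rw [injective_iff_map_eq_zero]
  rintro ⟨ξ, η⟩ h0
  have hd := ((contDiff_Th G h).differentiable (by simp) z).hasFDerivAt
  have h1 : ξ = 0 := by
    have h2 : HasFDerivAt (fun z => (Th G π z).1)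
        (ContinuousLinearMap.fst ℝ (Euc n) (Euc n)) z := hasFDerivAt_fst
    have h3 := congrArg (fun L : Euc n × Euc n →L[ℝ] Euc n => L (ξ, η)) (hd.fst.unique h2)
    simpa [h0] using h3.symm
  subst h1
  have h2 : HasFDerivAt (fun u : Euc n => (z.1, u)) (ContinuousLinearMap.inr ℝ (Euc n) (Euc n))
      z.2 := hasFDerivAt_prodMk_right _ _
  have h3 := (h.sm.differentiable (by simp) _).hasFDerivAt.comp z.2
    (HasFDerivAt.comp (f := fun u : Euc n => (z.1, u)) z.2 hd h2).snd
  have h4 := ((D3c.contDiffAt_Exp' G (h.mem z.1) (dmem G h z.1 z.2)).differentiableAt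
    (by simp)).hasFDerivAt.comp z.2 (fderiv ℝ π z.1).hasFDerivAt
  have h5 : Exp G (π z.1) ∘ fderiv ℝ π z.1 =
      π ∘ fun u => (Th G π ∘ fun u : Euc n => (z.1, u)) u |>.2 :=
    funext fun u => (pr_ex G h (dmem G h z.1 u)).symm
  rw [h5] at h4
  have h6 := congrArg (fun L : Euc n →L[ℝ] Euc N => L η) (h4.unique h3)
  have h7 := D3c.le_norm_fderiv_Exp ha G (h.mem z.1) (dmem G h z.1 z.2) (dmem G h z.1 η)
  simp only [ContinuousLinearMap.comp_apply, ContinuousLinearMap.inr_apply, h0, map_zero] at h6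
  rw [h6, norm_zero] at h7
  rw [norm_le_zero_iff.1 ((h.exp z.1 η).trans h7)]
  rfl

lemma surj (hc : IsCompact S) (hconn : IsConnected S) :
    ∃ D : ℝ, ∀ p ∈ S, ∃ x, ‖x‖ ≤ D ∧ π x = p := by
  let p : Euc n → S := fun v => ⟨π v, h.mem v⟩
  have hp : IsLocalHomeomorph p := isLocalHomeomorph_of_expanding h.sub h.sm h.mem h.exp
  have hsec : HasSections p :=
    hasSections hp (locExp_of_expanding h.sm h.mem h.exp (C := 2) (by norm_num)) (locContr h.sub)
  have := isPreconnected_iff_preconnectedSpace.1 hconn.isPreconnected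
  have := isCompact_iff_compactSpace.1 hc
  have h1 : range p = univ := by
    refine IsClopen.eq_univ ⟨?_, hp.isOpenMap.isOpen_range⟩ (range_nonempty p)
    refine isClosed_of_closure_subset fun q hq => ?_
    obtain ⟨U, hU, hqU, hτ⟩ := hsec q
    obtain ⟨_, h2, e, rfl⟩ := mem_closure_iff.1 hq U hU hqU
    obtain ⟨τ, -, h3, -⟩ := hτ e h2
    exact ⟨τ q, h3 q hqU⟩
  obtain ⟨k, hk⟩ := isCompact_univ.elim_directed_cover
    (fun k : ℕ => p '' Metric.ball (0 : Euc n) k)
    (fun k => hp.isOpenMap _ Metric.isOpen_ball) (fun q _ => by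
      obtain ⟨x, hx⟩ : q ∈ range p := h1 ▸ mem_univ q
      obtain ⟨k, hk⟩ := exists_nat_gt ‖x‖
      exact mem_iUnion.2 ⟨k, x, mem_ball_zero_iff.2 hk, hx⟩)
    (Monotone.directed_le fun i j hij =>
      image_mono (Metric.ball_subset_ball (by exact_mod_cast hij)))
  refine ⟨k, fun q hq => ?_⟩
  obtain ⟨x, hx, hxq⟩ := hk (mem_univ (⟨q, hq⟩ : S))
  exact ⟨x, (mem_ball_zero_iff.1 hx).le, congrArg Subtype.val hxq⟩

end Crest.Agent.N221.Ex

namespace Crest.Agent.N221

open Ex in
theorem covS : CovS := by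
  intro n N a S G H
  obtain ⟨o, ho⟩ := H.conn.nonempty
  have ha := H.a_pos.le
  have h := pr_Phi G H.sub ha ⟨o, ho⟩
  set π := D5b.Phi G ⟨o, ho⟩ with hπ
  let e := Equiv.ofBijective _ (bij_Th G h ha)
  have h1 : ∀ z, e.symm (Th G π z) = z := e.symm_apply_apply
  have h2 : ∀ z, Th G π (e.symm z) = z := e.apply_symm_apply
  have hsm := contDiff_inv (contDiff_Th G h) (inj_Th G h ha) h1 h2
  have h3 : ∀ x y, (e.symm (x, y)).1 = x := fun x y => congrArg Prod.fst (h2 (x, y))
  have hlg : ∀ x, ∀ v ∈ G.T (π x), fderiv ℝ π x (e.symm (x, ex G π x v)).2 = v := by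
    intro x v hv
    obtain ⟨u, rfl⟩ := dsurj G h x hv
    exact congrArg (fun z : Euc n × Euc n => fderiv ℝ π x z.2) (h1 (x, u))
  have h0 : π 0 = o := D5b.Phi_zero G ⟨o, ho⟩
  refine ⟨{
    pr := π
    ex := ex G π
    lg := fun x y => fderiv ℝ π x (e.symm (x, y)).2
    pr_smooth := h.sm
    ex_smooth := contDiff_ex G h
    lg_smooth := ((contDiff_d h).comp contDiff_fst).clm_apply hsm.snd
    pr_mem := h.mem
    pr_surj := surj h H.cpt H.conn
    pr_exp := h.exp
    lg_mem := fun x y => dmem G h x _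
    pr_ex := fun x v hv => pr_ex G h hv
    ex_zero := ex_zero G h
    ex_lg := fun x y => by
      have h4 := congrArg Prod.snd (h2 (x, y))
      simp only [Th, h3] at h4
      exact h4
    lg_ex := hlg
    lg_zero := ⟨D5b.frame G ⟨o, ho⟩, fun x => ?_⟩ }⟩
  have hm : ∀ x, D5b.frame G ⟨o, ho⟩ x ∈ G.T (π 0) := fun x => by
    rw [h0]; exact D5b.frame_mem G ⟨o, ho⟩ x
  have h4 : ex G π 0 (D5b.frame G ⟨o, ho⟩ x) = x := by
    have hc : Continuous fun u => ex G π 0 (D5b.frame G ⟨o, ho⟩ u) :=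
      (contDiff_ex G h).continuous.comp (f := fun u => (0, D5b.frame G ⟨o, ho⟩ u))
        (continuous_const.prodMk (D5b.frame G _).continuous)
    have h5 := (T2Space.isSeparatedMap (fun v => (⟨π v, h.mem v⟩ : S))).eq_of_comp_eq
      (isLocalHomeomorph_of_expanding h.sub h.sm h.mem h.exp).isLocallyInjective hc continuous_id
      (funext fun u => Subtype.ext (by
        show π (ex G π 0 _) = π u
        rw [pr_ex G h (hm u), h0]
        rfl)) 0 (by simp [ex_zero G h])
    exact congrFun h5 x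
  conv_lhs => rw [← h4]
  exact hlg 0 _ (hm x)

end Crest.Agent.N221
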