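import Crest.Agent.N221.C.Two
import Crest.Agent.N221.Base

/-!
Row 221, block C: the geodesic from `y(-∞)` to `x(+∞)`; local product structure.
-/

set_option autoImplicit false
set_option linter.unusedSectionVars false
set_option linter.unusedVariables false

open MeasureTheory Set Filter Topology
open scoped ContDiff RealInnerProductSpace ENNReal
open Crest.GeometryTopology.Submanifold
open Crest.Agent.R241.DDefs Crest.Agent.R241.D2
open Crest.Agent.R208.J Crest.Agent.R208.L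

noncomputable section

namespace Crest.Agent.N221.Cov

variable {n N : ℕ} {a : ℝ} {S : Set (Euc N)} {G : Geo n N (-(a ^ 2)) S} (C : Cov G)

namespace Lps

lemma sq_le_cosh {u : ℝ} (hu : 0 ≤ u) : 1 + u ^ 2 / 2 ≤ Real.cosh u := by
  have h1 : u / 2 ≤ Real.sinh (u / 2) := Real.self_le_sinh_iff.2 (by linarith)
  have h2 := Real.cosh_two_mul (u / 2)
  rw [show 2 * (u / 2) = u by ring, Real.cosh_sq] at h2
  nlinarith

lemma sinh_le {u : ℝ} (h0 : 0 ≤ u) (h1 : u ≤ 1) : Real.sinh u ≤ 2 * u := by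
  have a1 := Real.abs_exp_sub_one_le (x := u) (by rwa [abs_of_nonneg h0])
  have a2 := Real.add_one_le_exp (-u)
  rw [abs_of_nonneg h0] at a1
  rw [Real.sinh_eq]
  linarith [le_abs_self (Real.exp u - 1)]

variable {x y : Euc n} {v w : Euc N}

/-- the segment from `gd y w (-T)` to `gd x v T` passes close to `x` -/
lemma mid (H : Hyp n N a S) : ∃ η₀ K T₀ : ℝ, 0 < η₀ ∧ 0 < K ∧ 0 ≤ T₀ ∧ ∀ x v y w, C.Un x v →
    C.Un y w → ∀ η : ℝ, η ≤ η₀ → C.dd x y ≤ η → ‖v - w‖ ≤ η → ∀ T, T₀ ≤ T → ∃ (m : Euc n) (u : Euc N),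
      C.Un m u ∧ C.dd x m ≤ K * η ∧ C.dir m (C.gd x v T) = u ∧ C.dir m (C.gd y (-w) T) = -u := by
  have ha := H.a_pos
  obtain ⟨K1, hK1, h1⟩ := C.up_close H
  have ht : 0 < Real.tanh a := by
    rw [Real.tanh_eq_sinh_div_cosh]
    exact div_pos (Real.sinh_pos_iff.2 ha) (Real.cosh_pos a)
  have he : 0 < 1 - Real.exp (-(2 * a)) := sub_pos.2 (Real.exp_lt_one_iff.2 (by linarith))
  set K2 := 4 * K1 + 1 with hK2
  have hK2' : 1 ≤ K2 := by linarith
  set K4 := 4 * K2 ^ 2 / (a ^ 2 * Real.tanh a * (1 - Real.exp (-(2 * a)))) with hK4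
  have hK4' : 0 < K4 := by positivity
  refine ⟨K2⁻¹, √K4, 3 / a + 2, by positivity, by positivity, by positivity,
    fun x v y w hv hw η hη hxy hvw T hT => ?_⟩
  have h0 : 0 ≤ η := (C.dd_nonneg x y).trans hxy
  have h2 : K2 * η ≤ 1 := by rwa [← le_inv_mul_iff₀ (by linarith), mul_one]
  have h3 : η ≤ 1 := le_trans (le_mul_of_one_le_left h0 hK2') h2
  have h3a : 0 < 3 / a := by positivity
  have hyx : C.dd y x ≤ η := by rwa [C.dd_comm]
  set P := C.gd y (-w) T with hP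
  set Q := C.gd x v T with hQ
  have hA := (abs_le.1 (C.tail ha hw.neg x (T := T) (by linarith) hyx le_rfl (C.dd_nonneg _ _)).1)
  have hA1 : 1 ≤ C.dd x P := by linarith [hA.2]
  have hxP : x ≠ P := fun e => by rw [← e, C.dd_self] at hA1; linarith
  have hp := C.un_dir hxP
  have b1 := (C.tail ha hw.neg x (T := T) (by linarith) hyx zero_le_one hA1).2.1
  have b2 : C.dd (C.gd y (-w) (1 + (T - C.dd x P))) (C.gd y (-w) 1) ≤ η := by
    rw [hw.neg.dd_gd, abs_le]
    constructor <;> linarith [hA.1, hA.2]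
  have b3 := (C.dd_triangle ha.le _ _ _).trans (add_le_add b1 b2)
  have b4 : ‖C.dir x P + w‖ ≤ K1 * (η + (2 * η + η)) := by
    have := h1 x _ y _ hp hw.neg 1 (Or.inl rfl)
    rw [Prod.dist_eq, max_le_iff, dist_eq_norm (C.dir x P), sub_neg_eq_add] at this
    exact this.2.trans (mul_le_mul_of_nonneg_left (add_le_add hxy b3) hK1.le)
  have b5 : ‖C.dir x P + v‖ ≤ K2 * η := by
    have := norm_add_le (C.dir x P + w) (v - w)
    rw [add_add_sub_cancel] at this
    linarith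
  have e1 : C.dir x Q = v := hv.dir_gd_zero C (by linarith)
  have e2 : C.dd x Q = T := by rw [hQ, hv.dd_gd_zero, abs_of_nonneg (by linarith)]
  have b6 : 1 + ⟪C.dir x P, v⟫ ≤ (K2 * η) ^ 2 / 2 := by
    have := norm_add_sq_real (C.dir x P) v
    rw [hp.norm, hv.norm] at this
    linarith [pow_le_pow_left₀ (norm_nonneg _) b5 2]
  have b7 : 1 ≤ 1 - ⟪C.dir x P, v⟫ := by
    linarith [pow_le_one₀ (n := 2) (mul_nonneg (by linarith) h0) h2]
  obtain ⟨l, hl⟩ : ∃ l, l = C.dd x P + T - C.dd P Q := ⟨_, rfl⟩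
  have l0 : 0 ≤ l := by
    have := C.dd_triangle ha.le P x Q
    rw [C.dd_comm P x, e2] at this
    linarith
  have b8 : Real.exp (a * l) ≤ 4 := by
    have := C.gromov_exp ha x P Q
    rw [e1, e2] at this
    rw [hl, mul_sub, Real.exp_sub, div_le_iff₀ (Real.exp_pos _)]
    exact (le_mul_of_one_le_left (Real.exp_pos _).le b7).trans this
  have b9 : l ≤ 3 / a := by
    rw [le_div_iff₀ ha]
    linarith [Real.add_one_le_exp (a * l)]
  have hD : C.dd x P + 2 ≤ C.dd P Q := by linarith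
  have c1 : Real.tanh a * (a * l) ≤ (K2 * η) ^ 2 / 2 := by
    have := C.gromov_small ha x P Q (by linarith)
    rw [e1, e2, ← hl] at this
    exact ((le_mul_of_one_le_left (by positivity) b7).trans this).trans b6
  have c2 := C.thin ha x P Q (l := l) (by linarith) (by rw [C.dd_comm P x]; linarith)
    (by rw [C.dd_comm P x, e2]; linarith)
  rw [C.dd_comm P x] at c2
  have hPQ : P ≠ Q := fun e => by rw [← e, C.dd_self] at hD; linarith
  have hq := C.un_dir hPQ
  refine ⟨C.gd P (C.dir P Q) (C.dd x P), C.vel P (C.dir P Q) (C.dd x P), hq.vel C _, ?_, ?_, ?_⟩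
  · generalize hρ : C.dd x (C.gd P (C.dir P Q) (C.dd x P)) = ρ at c2
    have ρ0 : 0 ≤ ρ := hρ ▸ C.dd_nonneg _ _
    have c3 : (a * ρ) ^ 2 / 2 ≤ a * l * 4 / (1 - Real.exp (-(2 * a))) := by
      have := (sq_le_cosh (mul_nonneg ha.le ρ0)).trans c2
      have c4 : a * l * Real.exp (a * l) / (1 - Real.exp (-(2 * a))) ≤
          a * l * 4 / (1 - Real.exp (-(2 * a))) := by gcongr
      linarith
    rw [le_div_iff₀ he] at c3
    have c5 : ρ ^ 2 ≤ K4 * η ^ 2 := by
      rw [hK4, div_mul_eq_mul_div, le_div_iff₀ (by positivity)]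
      nlinarith [mul_le_mul_of_nonneg_left c3 ht.le]
    refine (Real.le_sqrt_of_sq_le c5).trans (le_of_eq ?_)
    rw [Real.sqrt_mul hK4'.le, Real.sqrt_sq h0]
  · have := hq.dir_gd C (s := C.dd x P) (t := C.dd P Q) (by linarith)
    rwa [C.gd_dir] at this
  · have := hq.dir_gd' C (s := C.dd x P) (t := 0) (by linarith)
    rwa [C.gd_zero] at this

/-- `tail` with linear constants -/
lemma tail' (ha : 0 < a) (hv : C.Un x v) (m : Euc n) {T ρ k : ℝ} (hρ : C.dd x m ≤ ρ) (h1 : ρ ≤ 1)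
    (h2 : a * ρ ≤ 1) (hk : 0 ≤ k) (hT : k + 1 ≤ T) : ∃ r, |r| ≤ ρ ∧ ∀ s ∈ Icc 0 k,
      C.dd (C.gd m (C.dir m (C.gd x v T)) s) (C.gd x v (s + r)) ≤ 4 * ρ * Real.exp (-(a * s)) := by
  have h0 := (C.dd_nonneg x m).trans hρ
  have h3 := (C.tail ha hv m (T := T) (by linarith) hρ le_rfl (C.dd_nonneg _ _)).1
  refine ⟨_, h3, fun s hs => (C.tail ha hv m (by linarith) hρ hs.1
    (by linarith [(abs_le.1 h3).2, hs.2])).2.2.trans ?_⟩
  calc 2 / a * Real.exp (-(a * s)) * Real.sinh (a * ρ)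
      ≤ 2 / a * Real.exp (-(a * s)) * (2 * (a * ρ)) :=
        mul_le_mul_of_nonneg_left (sinh_le (by positivity) h2) (by positivity)
    _ = _ := by field_simp; ring

/-- closeness in the unit tangent bundle along two geodesics -/
lemma up_exp (H : Hyp n N a S) : ∃ K : ℝ, 0 < K ∧ ∀ m u x v, C.Un m u → C.Un x v → ∀ e r ρ : ℝ,
    (e = 1 ∨ e = -1) → 0 ≤ ρ →
    (∀ s, 0 ≤ s → C.dd (C.gd m u (e * s)) (C.gd x v (e * s + r)) ≤ ρ * Real.exp (-(a * s))) →
    ∀ s, 0 ≤ s → dist (fl G ((C.pr m, u), e * s)) (fl G ((C.pr x, v), e * s + r)) ≤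
      K * ρ * Real.exp (-(a * s)) := by
  obtain ⟨K, hK, h1⟩ := C.up_close H
  refine ⟨2 * K, by positivity, fun m u x v hu hv e r ρ he h0 h s hs => ?_⟩
  rw [C.up_gd hu.mem, C.up_gd hv.mem]
  refine (h1 _ _ _ _ (hu.vel C _) (hv.vel C _) e he).trans ?_
  rw [C.gd_add hu.mem, C.gd_add hv.mem]
  have h2 := h (s + 1) (by linarith)
  rw [mul_add, mul_one, add_right_comm] at h2
  have h3 : ρ * Real.exp (-(a * (s + 1))) ≤ ρ * Real.exp (-(a * s)) :=
    mul_le_mul_of_nonneg_left (Real.exp_le_exp.2 (by nlinarith [H.a_pos])) h0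
  refine (mul_le_mul_of_nonneg_left (add_le_add (h s hs) (h2.trans h3)) hK.le).trans (le_of_eq ?_)
  ring

end Lps

open Lps

variable (H : Hyp n N a S)
include H

/-- For `T ≥ 2` let `P = gd y w (-T)`, `Q = gd x v T`.  `‖dir x P + v‖ ≤ K η` (`tail` for the
reversed geodesic + `lg_lip`/`up_close`), so `gromov_small` + `thin` give `m_T` on `[P,Q]` with
`dd x m_T ≤ K η`; `u_T = dir m_T Q = -dir m_T P`; `tail` on both sides; limit along a subsequence
`T → ∞` (`isCompact_dd`, `IsCompact.tendsto_subseq` for `(m, u, r, r')`). -/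
lemma join : ∃ η₀ K : ℝ, 0 < η₀ ∧ 0 < K ∧ ∀ x v y w, C.Un x v → C.Un y w → ∀ η : ℝ, η ≤ η₀ →
    C.dd x y ≤ η → ‖v - w‖ ≤ η → ∃ (m : Euc n) (u : Euc N) (r r' : ℝ), C.Un m u ∧
      |r| ≤ K * η ∧ |r'| ≤ K * η ∧
      (∀ s, 0 ≤ s → C.dd (C.gd m u s) (C.gd x v (s + r)) ≤ K * η * Real.exp (-(a * s))) ∧
      (∀ s, 0 ≤ s → C.dd (C.gd m u (-s)) (C.gd y w (-s + r')) ≤ K * η * Real.exp (-(a * s))) := by
  have ha := H.a_pos
  obtain ⟨η₀, K, T₀, h0, hK, hT₀, hm⟩ := mid C H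
  refine ⟨min η₀ ((K + 1) * (a + 1))⁻¹, 4 * (K + 1), by positivity, by positivity,
    fun x v y w hv hw η hη hxy hvw => ?_⟩
  have η0 : 0 ≤ η := (C.dd_nonneg x y).trans hxy
  have h1 : (K + 1) * (a + 1) * η ≤ 1 := by
    rw [← le_inv_mul_iff₀ (by positivity), mul_one]
    exact hη.trans (min_le_right _ _)
  have h2 : 0 ≤ (K + 1) * η := by positivity
  have h3 : 0 ≤ a * ((K + 1) * η) := by positivity
  let F : ℕ → Set (Euc n × Euc N × ℝ × ℝ) := fun k => {z | C.dd x z.1 ≤ 1 ∧ C.Un z.1 z.2.1 ∧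
    |z.2.2.1| ≤ 4 * (K + 1) * η ∧ |z.2.2.2| ≤ 4 * (K + 1) * η ∧ ∀ s ∈ Icc (0 : ℝ) k,
      C.dd (C.gd z.1 z.2.1 s) (C.gd x v (s + z.2.2.1)) ≤ 4 * (K + 1) * η * Real.exp (-(a * s)) ∧
      C.dd (C.gd z.1 z.2.1 (-s)) (C.gd y w (-s + z.2.2.2)) ≤
        4 * (K + 1) * η * Real.exp (-(a * s))}
  have cd : ∀ {f g : Euc n × Euc N × ℝ × ℝ → Euc n}, Continuous f → Continuous g →
      Continuous fun z => C.dd (f z) (g z) := fun {f g} hf hg =>
    C.continuous_dd.comp (f := fun z => (f z, g z)) (hf.prodMk hg)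
  have cg : ∀ s : ℝ, Continuous fun z : Euc n × Euc N × ℝ × ℝ => C.gd z.1 z.2.1 s := fun s =>
    C.contDiff_gd.continuous.comp (f := fun z : Euc n × Euc N × ℝ × ℝ => (z.1, z.2.1, s))
      (by fun_prop)
  have hcl : ∀ k, IsClosed (F k) := fun k => by
    refine (isClosed_le (cd continuous_const continuous_fst) continuous_const).and
      (IsClosed.and ((isClosed_US G).preimage
        ((C.pr_smooth.continuous.comp continuous_fst).prodMk continuous_snd.fst))
      ((isClosed_le (by fun_prop) continuous_const).and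
      ((isClosed_le (by fun_prop) continuous_const).and ?_)))
    simp only [ofPred_forall]
    refine isClosed_iInter fun s => isClosed_iInter fun _ => IsClosed.and
      (isClosed_le (cd (cg _) ?_) continuous_const) (isClosed_le (cd (cg _) ?_) continuous_const)
    · exact (C.contDiff_gd_t x v).continuous.comp (by fun_prop)
    · exact (C.contDiff_gd_t y w).continuous.comp (by fun_prop)
  have hne : ∀ k, (F k).Nonempty := fun k => by
    have hk : (0 : ℝ) ≤ k := k.cast_nonneg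
    obtain ⟨m, u, hu, b1, b2, b3⟩ := hm x v y w hv hw η (hη.trans (min_le_left _ _)) hxy hvw
      (T₀ + k + 1) (by linarith)
    have b4 : C.dd y m ≤ (K + 1) * η := by
      have := C.dd_triangle ha.le y x m
      rw [C.dd_comm y x] at this
      linarith
    obtain ⟨r, c1, c2⟩ := tail' C ha hv m (T := T₀ + k + 1) (ρ := (K + 1) * η) (by linarith)
      (by linarith) (by linarith) hk (by linarith)
    obtain ⟨r', c3, c4⟩ := tail' C ha hw.neg m (T := T₀ + k + 1) b4 (by linarith) (by linarith) hk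
      (by linarith)
    rw [b2] at c2
    rw [b3] at c4
    refine ⟨(m, u, r, -r'), by simp only; linarith, hu, by simp only; linarith,
      by simp only [abs_neg]; linarith, fun s hs => ⟨by simpa only [mul_assoc] using c2 s hs, ?_⟩⟩
    simpa only [C.gd_neg, neg_add, mul_assoc] using c4 s hs
  obtain ⟨z, hz⟩ := IsCompact.nonempty_iInter_of_sequence_nonempty_isCompact_isClosed F
    (fun k z hz => ⟨hz.1, hz.2.1, hz.2.2.1, hz.2.2.2.1, fun s hs => hz.2.2.2.2 s
      ⟨hs.1, hs.2.trans (by push_cast; linarith)⟩⟩) hne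
    (((C.isCompact_dd ha.le x 1).prod ((isCompact_closedBall (0 : Euc N) 1).prod
      ((isCompact_closedBall (0 : ℝ) (4 * (K + 1) * η)).prod
        (isCompact_closedBall (0 : ℝ) (4 * (K + 1) * η))))).of_isClosed_subset (hcl 0)
      fun z hz => ⟨hz.1, mem_closedBall_zero_iff.2 hz.2.1.norm.le,
        mem_closedBall_zero_iff.2 hz.2.2.1, mem_closedBall_zero_iff.2 hz.2.2.2.1⟩) hcl
  have h4 := mem_iInter.1 hz
  exact ⟨z.1, z.2.1, z.2.2.1, z.2.2.2, (h4 0).2.1, (h4 0).2.2.1, (h4 0).2.2.2.1,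
    fun s hs => ((h4 ⌈s⌉₊).2.2.2.2 s ⟨hs, Nat.le_ceil s⟩).1,
    fun s hs => ((h4 ⌈s⌉₊).2.2.2.2 s ⟨hs, Nat.le_ceil s⟩).2⟩

include C in
/-- `exists_r0`, `join`, `up_close`, `shadow` -/
lemma lps (hHol : UHolS) : En.LPS (US G) (ph G) (St G) := by
  intro δ hδ
  have ha := H.a_pos
  obtain ⟨r0, hr0, -, h1⟩ := C.exists_r0 H
  obtain ⟨η₀, K, hη₀, hK, h2⟩ := C.join H
  obtain ⟨K1, hK1, h3⟩ := up_exp C H
  obtain ⟨θ, K2, hθ, hK2, h4⟩ := shadow (G := G) H hHol
  have lim : ∀ {f : ℝ → ℝ} {c : ℝ}, ContinuousAt f 0 → f 0 < c → ∀ᶠ η in 𝓝[>] (0 : ℝ), f η ≤ c :=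
    fun hf hc => ((hf.eventually_lt continuousAt_const hc).mono fun _ h => h.le).filter_mono
      nhdsWithin_le_nhds
  obtain ⟨η, e1, e2, e3, e4, e5, e0⟩ := ((lim (f := fun η => η) (by fun_prop) hr0).and
    ((lim (f := fun η => 2 * η) (c := η₀) (by fun_prop) (by simpa using hη₀)).and
    ((lim (f := fun η => K * (2 * η)) (c := δ) (by fun_prop) (by simpa using hδ)).and
    ((lim (f := fun η => K1 * (K * (2 * η))) (c := δ) (by fun_prop) (by simpa using hδ)).and
    ((lim (f := fun η => K2 * (K1 * (K * (2 * η))) ^ θ) (c := δ)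
      (continuousAt_const.mul (ContinuousAt.rpow_const (by fun_prop) (Or.inr hθ.le)))
      (by simpa [hθ.ne'] using hδ)).and self_mem_nhdsWithin))))).exists
  have η0 : 0 < η := e0
  refine ⟨η, η0, fun q hq q' hq' hd => ?_⟩
  obtain ⟨x, hx, hv⟩ := C.exists_un hq
  rw [Prod.dist_eq, max_lt_iff, dist_eq_norm, dist_eq_norm, ← hx] at hd
  obtain ⟨y, hy, hxy⟩ := h1 x q'.1 hq'.1.1 (hd.1.le.trans e1)
  have hw : C.Un y q'.2 := by rw [Un, hy]; exact hq'
  obtain ⟨m, u, r, r', hu, b1, b2, b3, b4⟩ := h2 x q.2 y q'.2 hv hw (2 * η) e2 (by linarith [hd.1])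
    (by linarith [hd.2])
  have ρ0 : 0 ≤ K * (2 * η) := by positivity
  have c1 := h3 m u x q.2 hu hv 1 r _ (Or.inl rfl) ρ0 (by simpa only [one_mul] using b3)
  have c2 := h3 m u y q'.2 hu hw (-1) r' _ (Or.inr rfl) ρ0 (by simpa only [neg_one_mul] using b4)
  simp only [one_mul, neg_one_mul, hx, hy, Prod.mk.eta] at c1 c2
  have hb : ∀ s, 0 ≤ s → K1 * (K * (2 * η)) * Real.exp (-(a * s)) ≤ δ := fun s hs =>
    (mul_le_of_le_one_right (by positivity) (Real.exp_le_one_iff.2 (by nlinarith))).trans e4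
  have hl : Tendsto (fun s => K1 * (K * (2 * η)) * Real.exp (-(a * s))) atTop (𝓝 0) := by
    simpa using (Real.tendsto_exp_neg_atTop_nhds_zero.comp
      (tendsto_id.const_mul_atTop ha)).const_mul (K1 * (K * (2 * η)))
  refine ⟨(C.pr m, u), hu, r, r', b1.trans e3, b2.trans e3, fun t ht => ⟨(c1 t ht).trans (hb t ht),
    ((h4 _ hu _ (fl_US hq r) _ t (by positivity) ht).1 fun s hs => ?_).trans e5⟩, fun t ht => ?_,
    squeeze_zero' (Eventually.of_forall fun _ => dist_nonneg)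
      ((eventually_ge_atTop 0).mono c1) hl,
    squeeze_zero' (Eventually.of_forall fun _ => dist_nonneg)
      ((eventually_le_atBot 0).mono fun t ht => ?_) (hl.comp tendsto_neg_atBot_atTop)⟩
  · rw [← fl_add' G hq.1, add_comm]
    exact c1 s hs.1
  · obtain ⟨t, rfl⟩ := neg_surjective t
    have ht' : 0 ≤ t := neg_nonpos.1 ht
    refine ⟨(c2 t ht').trans (hb t ht'),
      ((h4 _ hu _ (fl_US hq' r') _ t (by positivity) ht').2.2 fun s hs => ?_).trans e5⟩
    rw [← fl_add' G hq'.1, add_comm]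
    exact c2 s hs.1
  · have := c2 (-t) (neg_nonneg.2 ht)
    rwa [neg_neg] at this

omit C H in
theorem _root_.Crest.Agent.N221.lpsS (hCov : CovS) (hHol : UHolS) : LpsS :=
  fun n N a S G H => (hCov n N a S G H).elim fun C => C.lps H hHol

end Crest.Agent.N221.Cov
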