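import Crest.Agent.N221.C.Loc

/-!
Row 221, block C: polar coordinates in the cover, volumes of balls.
-/

set_option autoImplicit false
set_option linter.unusedSectionVars false
set_option linter.unusedVariables false

open MeasureTheory Set Filter Topology
open scoped ContDiff RealInnerProductSpace ENNReal
open Crest.GeometryTopology.Submanifold
open Crest.Agent.R241.DDefs Crest.Agent.R241.D2
open Crest.Agent.R208.J Crest.Agent.R208.L

noncomputable section

namespace Crest.Agent.N221.Cov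

namespace Pol

open Crest.Agent.R241.AF

variable {n N : ℕ}

lemma jac_comp (B : Euc n →L[ℝ] Euc N) (D : Euc n →L[ℝ] Euc n) :
    jac (B.comp D) = jac B * |D.det| :=
  (LinearMap.normDet_comp_of_finrank_eq D.toLinearMap B.toLinearMap rfl).trans
    (by rw [LinearMap.normDet_eq_abs_det]; rfl)

lemma muHE_eq : (μHE[n] : Measure (Euc n)) = volume :=
  EuclideanSpace.euclideanHausdorffMeasure_eq_volume n

lemma one_le_jac {B : Euc n →L[ℝ] Euc N} (h : ∀ w, ‖w‖ ≤ ‖B w‖) : 1 ≤ jac B := by
  have h1 := muHE_le_image (f := B) (s := Metric.ball 0 1) (K := 1) (fun x _ y _ => by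
    rw [edist_dist, edist_dist, dist_eq_norm, dist_eq_norm, ← map_sub, ENNReal.coe_one, one_mul]
    exact ENNReal.ofReal_le_ofReal (h _)) n
  have h2 := muHE_linear_image B (Metric.ball 0 1)
  rw [finrank_Euc] at h2
  rw [h2, muHE_eq, ENNReal.coe_one, one_pow, one_mul] at h1
  refine ENNReal.one_le_ofReal.1 ((ENNReal.mul_le_mul_iff_left
    (Metric.measure_ball_pos volume (0 : Euc n) one_pos).ne' measure_ball_lt_top.ne).1 ?_)
  rwa [one_mul]

lemma norm_frame {A : Euc n →L[ℝ] Euc N} (hA : ∀ v w, ⟪A v, A w⟫ = ⟪v, w⟫) (y : Euc n) :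
    ‖A y‖ = ‖y‖ := by
  rw [norm_eq_sqrt_real_inner, hA, ← norm_eq_sqrt_real_inner]

lemma ball_pos {r : ℝ} (hr : 0 < r) :
    ∃ c : ℝ, 0 < c ∧ ∀ x : Euc n, volume (Metric.ball x r) = ENNReal.ofReal c :=
  ⟨(volume (Metric.ball (0 : Euc n) r)).toReal,
    ENNReal.toReal_pos (Metric.measure_ball_pos _ _ hr).ne' measure_ball_lt_top.ne, fun x => by
      rw [ENNReal.ofReal_toReal measure_ball_lt_top.ne, Measure.addHaar_ball_center]⟩

end Pol

open Pol Crest.Agent.R241

variable {n N : ℕ} {a : ℝ} {S : Set (Euc N)} {G : Geo n N (-(a ^ 2)) S} (C : Cov G)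

lemma continuous_dens : Continuous fun x => ENNReal.ofReal (AF.jac (fderiv ℝ C.pr x)) :=
  ENNReal.continuous_ofReal.comp (AF.continuous_jac.comp (C.pr_smooth.continuous_fderiv (by simp)))

lemma volume_le_vol : (volume : Measure (Euc n)) ≤ C.vol := by
  conv_lhs => rw [← withDensity_one (μ := volume)]
  exact withDensity_mono (.of_forall fun x => ENNReal.one_le_ofReal.2 (one_le_jac (C.pr_exp x)))

instance : IsLocallyFiniteMeasure C.vol :=
  IsLocallyFiniteMeasure.withDensity_ofReal
    (AF.continuous_jac.comp (C.pr_smooth.continuous_fderiv (by simp)))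

variable (H : Hyp n N a S)
include H

omit C in
/-- `nuF G p` lives on the unit sphere of `T_p` -/
lemma ae_nuF {p : Euc N} (hp : p ∈ S) : ∀ᵐ u ∂(nuF G p), (p, u) ∈ US G := by
  obtain ⟨A, hA, hAT⟩ := Crest.Agent.R208.L.exists_frame G hp
  rw [nuF_eq G (by have := H.hn; omega) hp A hA hAT]
  refine (ae_map_iff (A.continuous.comp continuous_subtype_val).aemeasurable
    ((isClosed_US G).measurableSet.preimage measurable_prodMk_left)).2 (.of_forall fun u => ?_)
  exact ⟨⟨hp, hAT.subset (mem_range_self _)⟩,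
    (norm_frame hA _).trans (mem_sphere_zero_iff_norm.1 u.2)⟩

/-- POLAR COORDINATES about any point.  With an isometric frame `A` of `T_{pr x}`,
`e w = ex x (A w)` is a smooth bijection of `Euc n`; change of variables
(`lintegral_image_eq_lintegral_abs_det_fderiv_mul`), `jac (d pr) |det de| = jac (d(Exp ∘ A)) = jE`
(`R208.L.jE_eq`, multiplicativity of `normDet`), `lintegral_polar`, `nuF_eq`, `jE_polar`
(copy `R208.L.vol_polar`). -/
lemma polar (x : Euc n) {F : Euc n → ℝ≥0∞} (hF : Measurable F) :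
    ∫⁻ y, F y ∂C.vol = ∫⁻ u, ∫⁻ t in Ioi (0 : ℝ),
      ENNReal.ofReal (Dn G (C.pr x, u) 0 t) * F (C.gd x u t) ∂volume ∂(nuF G (C.pr x)) := by
  have hn : 1 ≤ n := by have := H.hn; omega
  have hp := C.pr_mem x
  obtain ⟨A, hA, hAT⟩ := Crest.Agent.R208.L.exists_frame G hp
  have hmem : ∀ v, A v ∈ G.T (C.pr x) := fun v => hAT.subset (mem_range_self _)
  have hAi : Isometry A := AddMonoidHomClass.isometry_of_norm A (norm_frame hA)
  set e : Euc n → Euc n := fun w => C.ex x (A w) with he
  have hs : ContDiff ℝ ∞ e := C.ex_smooth.comp (contDiff_const.prodMk A.contDiff)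
  have hd : ∀ w, HasFDerivAt e (fderiv ℝ e w) w := fun w =>
    (hs.differentiable (by simp) w).hasFDerivAt
  have hinj : InjOn e univ := fun v _ w _ h => hAi.injective (by
    rw [← C.lg_ex x _ (hmem v), ← C.lg_ex x _ (hmem w)]; exact congrArg _ h)
  have hsurj : e '' univ = univ := eq_univ_of_forall fun y => by
    obtain ⟨w, hw⟩ := hAT.superset (C.lg_mem x y)
    exact ⟨w, trivial, by rw [he]; simp only [hw, C.ex_lg]⟩
  have hj : ∀ w, AF.jac (fderiv ℝ C.pr (e w)) * |(fderiv ℝ e w).det| = jE G (C.pr x, A w) := by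
    intro w
    have h1 := ((C.pr_smooth.differentiable (by simp) (e w)).hasFDerivAt.comp w (hd w))
    have h2 := ((D3c.contDiffAt_Exp' G hp (hmem w)).differentiableAt
      (by simp)).hasFDerivAt.comp w A.hasFDerivAt
    have h3 : C.pr ∘ e = Exp G (C.pr x) ∘ A := funext fun v => C.pr_ex x _ (hmem v)
    rw [h3] at h1
    rw [← jac_comp, h1.unique h2, jE_eq G (q := (C.pr x, A w)) ⟨hp, hmem w⟩ A hA hAT]
  have hm : Measurable fun w => ENNReal.ofReal (jE G (C.pr x, A w)) * F (e w) :=
    (ENNReal.measurable_ofReal.comp ((measurable_jE G).comp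
      (measurable_prodMk_left.comp A.continuous.measurable))).mul (hF.comp hs.continuous.measurable)
  calc ∫⁻ y, F y ∂C.vol
      = ∫⁻ y in e '' univ, ENNReal.ofReal (AF.jac (fderiv ℝ C.pr y)) * F y := by
        rw [hsurj, Measure.restrict_univ, vol,
          lintegral_withDensity_eq_lintegral_mul _ C.continuous_dens.measurable hF]
        rfl
    _ = ∫⁻ w, ENNReal.ofReal (jE G (C.pr x, A w)) * F (e w) := by
        rw [lintegral_image_eq_lintegral_abs_det_fderiv_mul volume .univ
          (fun w _ => (hd w).hasFDerivWithinAt) hinj, Measure.restrict_univ]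
        refine lintegral_congr fun w => ?_
        rw [← mul_assoc, ← ENNReal.ofReal_mul (abs_nonneg _), mul_comm |_|, hj]
    _ = _ := by
        have hE : MeasurableEmbedding fun u : Metric.sphere (0 : Euc n) 1 => A u :=
          (hAi.isClosedEmbedding.comp
            Metric.isClosed_sphere.isClosedEmbedding_subtypeVal).measurableEmbedding
        rw [lintegral_polar hm (nontrivial_Euc hn), nuF_eq G hn hp A hA hAT, hE.lintegral_map]
        refine lintegral_congr fun u => setLIntegral_congr_fun measurableSet_Ioi fun t ht => ?_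
        have h1 := jE_polar (G := G) (q := (C.pr x, A u)) ⟨hp, hmem _⟩
          ((norm_frame hA _).trans (mem_sphere_zero_iff_norm.1 u.2)) ht
        simp only [he, map_smul, AF.finrank_Euc, gd]
        rw [← h1, ← mul_assoc, ← ENNReal.ofReal_mul (pow_nonneg (le_of_lt ht) _)]

/-- deck transformations preserve the volume (polar coordinates at `x` and at `g x`) -/
lemma Deck.map_vol {g : Euc n → Euc n} (h : C.Deck g) : Measure.map g C.vol = C.vol := by
  have hg := h.smooth.continuous.measurable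
  ext s hs
  have hF : Measurable (s.indicator (1 : Euc n → ℝ≥0∞)) := measurable_one.indicator hs
  rw [← lintegral_indicator_one hs, ← lintegral_indicator_one hs, lintegral_map hF hg,
    C.polar H 0 (F := fun y => s.indicator 1 (g y)) (hF.comp hg), C.polar H (g 0) hF, h.pr_eq]
  refine lintegral_congr_ae ((ae_nuF H (C.pr_mem 0)).mono fun u hu => ?_)
  simp only [Deck.gd_eq C h hu.1.2]

lemma Deck.vol_eq {g : Euc n → Euc n} (h : C.Deck g) (x : Euc n) {s : Set ℝ}
    (hs : MeasurableSet s) : C.vol {y | C.dd x y ∈ s} = C.vol {y | C.dd (g x) y ∈ s} := by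
  conv_rhs => rw [← Deck.map_vol C H h]
  have hm : MeasurableSet {y | C.dd (g x) y ∈ s} := (C.continuous_dd_right _).measurable hs
  rw [Measure.map_apply h.smooth.continuous.measurable hm]
  simp only [preimage_ofPred_eq, Deck.dd_eq C h]

lemma vol_ball_le (R : ℝ) : ∃ K : ℝ, 0 < K ∧ ∀ x, C.vol {y | C.dd x y ≤ R} ≤ ENNReal.ofReal K := by
  obtain ⟨D, -, hD⟩ := C.exists_deck
  have h1 : C.vol (Metric.closedBall 0 (D + R)) ≠ ⊤ := measure_closedBall_lt_top.ne
  refine ⟨(C.vol (Metric.closedBall 0 (D + R))).toReal + 1, by positivity, fun x => ?_⟩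
  obtain ⟨g, hg, hx⟩ := hD x
  refine (Deck.vol_eq C H hg x (measurableSet_Iic (a := R))).trans_le
    ((measure_mono fun y hy => ?_).trans ((ENNReal.ofReal_toReal h1).ge.trans
      (ENNReal.ofReal_le_ofReal (le_add_of_nonneg_right zero_le_one))))
  exact mem_closedBall_zero_iff.2 ((C.norm_le_of_dd H.a_pos.le _ _).trans (add_le_add hx hy))

/-- a Euclidean ball of uniform radius inside a `dd`-ball -/
lemma ball_sub (D : ℝ) {R : ℝ} (hR : 0 < R) : ∃ r : ℝ, 0 < r ∧ ∀ x : Euc n, ‖x‖ ≤ D →
    ∀ y ∈ Metric.ball x r, C.dd x y < R := by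
  obtain ⟨K, hK, h⟩ := C.dd_le_on_ball H.a_pos.le (D + 1)
  refine ⟨min 1 (R / K), lt_min one_pos (div_pos hR hK), fun x hx y hy => ?_⟩
  rw [Metric.mem_ball, dist_comm, dist_eq_norm, lt_min_iff, lt_div_iff₀' hK] at hy
  refine (h x y (by linarith) ?_).trans_lt hy.2
  linarith [norm_sub_norm_le y x, norm_sub_rev x y]

/-- `Dn q 0 t > 0` for `t > 0` (`jE_polar`, `le_norm_fderiv_Exp`), continuous: bounded below on
`US × [R/4, R/2]` -/
lemma vol_ball_ge {R : ℝ} (hR : 0 < R) :
    ∃ c : ℝ, 0 < c ∧ ∀ x, ENNReal.ofReal c ≤ C.vol {y | C.dd x y < R} := by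
  obtain ⟨D, -, hD⟩ := C.exists_deck
  obtain ⟨r, hr, h⟩ := C.ball_sub H D hR
  obtain ⟨c, hc, h1⟩ := ball_pos (n := n) hr
  refine ⟨c, hc, fun x => ?_⟩
  obtain ⟨g, hg, hx⟩ := hD x
  exact (h1 (g x)).ge.trans ((C.volume_le_vol _).trans ((measure_mono (h _ hx)).trans
    (Deck.vol_eq C H hg x (measurableSet_Iio (a := R))).ge))

include C in
/-- `μHE[n]` of a relatively open ball is uniformly positive (`pr` is injective and expanding on a
small `dd`-ball: `R241.AF.muHE_le_image` or the area formula) -/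
lemma muHE_ball_ge {δ : ℝ} (hδ : 0 < δ) :
    ∃ c : ℝ, 0 < c ∧ ∀ p ∈ S, ENNReal.ofReal c ≤ μHE[n] (S ∩ Metric.ball p δ) := by
  obtain ⟨D, hD⟩ := C.pr_surj
  obtain ⟨r0, hr0, h0, -⟩ := C.exists_r0 H
  obtain ⟨r, hr, h⟩ := C.ball_sub H D (lt_min hδ (half_pos hr0))
  obtain ⟨c, hc, h1⟩ := ball_pos (n := n) hr
  refine ⟨c / 2 ^ n, by positivity, fun p hp => ?_⟩
  obtain ⟨x, hx, rfl⟩ := hD p hp
  have h2 := AF.muHE_le_image (f := C.pr) (s := Metric.ball x r) (K := 2) (fun y hy z hz => by
    have h3 := (h x hx y hy).trans_le (min_le_right _ _)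
    have h4 := (h x hx z hz).trans_le (min_le_right _ _)
    have h5 := C.dd_triangle H.a_pos.le y x z
    rw [C.dd_comm y x] at h5
    rw [edist_dist, edist_dist, dist_eq_norm, dist_eq_norm, ← ENNReal.ofReal_coe_nnreal,
      ← ENNReal.ofReal_mul (NNReal.coe_nonneg _)]
    exact ENNReal.ofReal_le_ofReal
      ((C.norm_sub_le_dd H.a_pos.le y z).trans (h0 y z (by linarith)))) n
  rw [muHE_eq, h1] at h2
  rw [ENNReal.ofReal_div_of_pos (by positivity), ENNReal.ofReal_pow zero_le_two,
    ENNReal.ofReal_ofNat]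
  refine ENNReal.div_le_of_le_mul' (h2.trans (mul_le_mul_right (measure_mono ?_) _))
  rintro _ ⟨y, hy, rfl⟩
  exact ⟨C.pr_mem y, by
    rw [Metric.mem_ball, dist_comm, dist_eq_norm]
    exact (C.pr_sub_le x y).trans_lt ((h x hx y hy).trans_le (min_le_left _ _))⟩

end Crest.Agent.N221.Cov
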