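import Crest.Agent.N221.C.Two
import Crest.Agent.N221.C.Polar
import Crest.Agent.N221.Base

/-!
Row 221, block C: the volume lemma.
-/

set_option autoImplicit false
set_option linter.unusedSectionVars false
set_option linter.unusedVariables false

open MeasureTheory Set Filter Topology
open scoped ContDiff RealInnerProductSpace ENNReal
open Crest.GeometryTopology.Submanifold
open Crest.Agent.R241.DDefs Crest.Agent.R241.D2
open Crest.Agent.R208.J Crest.Agent.R208.L

noncomputable section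

namespace Crest.Agent.N221.Cov

variable {n N : ℕ} {a : ℝ} {S : Set (Euc N)} {G : Geo n N (-(a ^ 2)) S} (C : Cov G)

namespace Vol

/-- closed Bowen ball -/
def cB (G : Geo n N (-(a ^ 2)) S) (t ε : ℝ) (z : TT N) : Set (TT N) :=
  {y | y ∈ US G ∧ ∀ s ∈ Icc (0 : ℝ) t, dist (fl G (y, s)) (fl G (z, s)) ≤ ε}

lemma measurableSet_cB (t ε : ℝ) (z : TT N) : MeasurableSet (cB G t ε z) := by
  have h : cB G t ε z = US G ∩ ⋂ s ∈ Icc (0 : ℝ) t,
      US G ∩ (fun y => fl G (y, s)) ⁻¹' Metric.closedBall (fl G (z, s)) ε := by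
    ext y
    simp only [cB, mem_ofPred_eq, mem_inter_iff, mem_iInter, mem_preimage, Metric.mem_closedBall]
    exact and_congr_right fun hy => ⟨fun h s hs => ⟨hy, h s hs⟩, fun h s hs => (h s hs).2⟩
  rw [h]
  refine ((isClosed_US G).inter (isClosed_biInter fun s _ => ?_)).measurableSet
  refine ContinuousOn.preimage_isClosed_of_isClosed ?_ (isClosed_US G) Metric.isClosed_closedBall
  exact (continuousOn_fl G).comp (f := fun y => (y, s)) (by fun_prop) fun y hy => ⟨hy.1, mem_univ _⟩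

lemma nu_slice {B : Set (TT N)} (hB : MeasurableSet B) :
    nu G B = ∫⁻ p in S, nuF G p (Prod.mk p ⁻¹' B) ∂μHE[n] := by
  rw [← lintegral_indicator_one hB, lintegral_nu G (measurable_one.indicator hB)]
  refine lintegral_congr fun p => ?_
  rw [← lintegral_indicator_one (measurable_prodMk_left hB)]
  rfl

lemma mu_eq (h : IsProbabilityMeasure (mu G)) :
    ∃ m : ℝ, 0 < m ∧ ∀ A, mu G A = ENNReal.ofReal m * nu G A := by
  have h1 : (nu G univ)⁻¹ * nu G univ = 1 := h.measure_univ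
  have h2 : nu G univ ≠ 0 := fun e => by simp [e] at h1
  have h3 : nu G univ ≠ ⊤ := fun e => by simp [e] at h1
  refine ⟨(nu G univ)⁻¹.toReal, ENNReal.toReal_pos (ENNReal.inv_ne_zero.2 h3)
    (ENNReal.inv_ne_top.2 h2), fun A => ?_⟩
  rw [ENNReal.ofReal_toReal (ENNReal.inv_ne_top.2 h2)]
  rfl

lemma pr_gd {x : Euc n} {v : Euc N} (h : C.Un x v) (s : ℝ) :
    C.pr (C.gd x v s) = (fl G ((C.pr x, v), s)).1 := by rw [C.up_gd h.mem]

lemma norm_fst_le (q q' : TT N) : ‖q.1 - q'.1‖ ≤ dist q q' := by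
  rw [← dist_eq_norm, Prod.dist_eq]
  exact le_max_left _ _

lemma measurable_dd (y : Euc n) : Measurable fun x => C.dd y x :=
  (C.continuous_dd.comp (Continuous.prodMk_right y)).measurable

lemma le_ofReal_div {c K : ℝ} (hc : 0 < c) {x : ℝ≥0∞} (h : ENNReal.ofReal c * x ≤ ENNReal.ofReal K) :
    x ≤ ENNReal.ofReal (K / c) := by
  rwa [ENNReal.ofReal_div_of_pos hc, ENNReal.le_div_iff_mul_le (Or.inl (by simpa using hc))
    (Or.inl ENNReal.ofReal_ne_top), mul_comm]

lemma ofReal_div_le {c K : ℝ} (hc : 0 < c) {x : ℝ≥0∞} (h : ENNReal.ofReal K ≤ ENNReal.ofReal c * x) :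
    ENNReal.ofReal (K / c) ≤ x := by
  rw [ENNReal.ofReal_div_of_pos hc]
  exact ENNReal.div_le_of_le_mul' h

variable (H : Hyp n N a S)
include C H

/-- upper bound for the slices -/
lemma slice_up (hHol : UHolS) (hDn : DnS) : ∃ ε K : ℝ, 0 < ε ∧ 0 < K ∧ ∀ z ∈ US G, ∀ t, 1 ≤ t →
    ∀ p ∈ S, nuF G p (Prod.mk p ⁻¹' cB G t ε z) ≤ ENNReal.ofReal (K * Real.exp (-St G t z)) := by
  obtain ⟨r0, hr0, -, hlift⟩ := C.exists_r0 H
  obtain ⟨ε₀, hε₀, hclose⟩ := C.lift_close H
  obtain ⟨hadd, B, hB, hSt⟩ := St_basic H hHol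
  obtain ⟨θ, Kb, -, -, hbow⟩ := C.bowen H hHol
  obtain ⟨D, hD, hDn⟩ := hDn n N a S G H
  obtain ⟨K, hK, hvol⟩ := C.vol_ball_le H 2
  obtain ⟨ε, hε, h1, h2, h3⟩ : ∃ ε : ℝ, 0 < ε ∧ ε ≤ r0 ∧ ε ≤ ε₀ ∧ 2 * ε ≤ 1 :=
    ⟨min r0 (min ε₀ (1 / 2)), by positivity, min_le_left _ _,
      (min_le_right _ _).trans (min_le_left _ _), by
        have := (min_le_right r0 _).trans (min_le_right ε₀ (1 / 2)); linarith⟩
  refine ⟨ε, K * D * Real.exp (B + Kb), hε, by positivity, fun z hz t ht p hp => ?_⟩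
  rcases (Prod.mk p ⁻¹' cB G t ε z).eq_empty_or_nonempty with h0 | ⟨u0, hu0⟩
  · rw [h0, measure_empty]; exact zero_le
  obtain ⟨z1, v₀⟩ := z
  obtain ⟨x₀, rfl, hx₀⟩ := C.exists_un hz
  have h4 : ‖C.pr x₀ - p‖ ≤ ε := by
    have := hu0.2 0 ⟨le_rfl, by linarith⟩
    rw [fl_zero, fl_zero, dist_comm] at this
    exact (norm_fst_le (C.pr x₀, v₀) (p, u0)).trans this
  obtain ⟨x, rfl, hx⟩ := hlift x₀ p hp (h4.trans h1)
  set c : ℝ := Real.exp (St G t (C.pr x₀, v₀) - (B + Kb)) / D with hc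
  have hc0 : 0 < c := by positivity
  have hF : MeasurableSet {y | C.dd (C.gd x₀ v₀ t) y ≤ 2} :=
    measurableSet_le (measurable_dd C _) measurable_const
  have key : ENNReal.ofReal c * nuF G (C.pr x) (Prod.mk (C.pr x) ⁻¹' cB G t ε (C.pr x₀, v₀)) ≤
      ENNReal.ofReal K := by
    refine le_trans ?_ (hvol (C.gd x₀ v₀ t))
    rw [← lintegral_indicator_one hF, C.polar H x (measurable_one.indicator hF),
      ← lintegral_indicator_const (measurable_prodMk_left (measurableSet_cB _ _ _))]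
    refine lintegral_mono fun u => indicator_apply_le' (fun hu => ?_) fun _ => zero_le
    have hU : C.Un x u := hu.1
    have h5 : C.dd (C.gd x₀ v₀ t) (C.gd x u t) ≤ 2 * ε := by
      refine hclose ε h2 _ _ 0 t (C.contDiff_gd_t _ _).continuous.continuousOn
        (C.contDiff_gd_t _ _).continuous.continuousOn ?_ (fun s hs => ?_) t ⟨by linarith, le_rfl⟩
      · rw [C.gd_zero, C.gd_zero]; linarith
      · rw [pr_gd C hx₀, pr_gd C hU]
        refine (norm_fst_le _ _).trans ?_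
        rw [dist_comm]
        exact hu.2 s hs
    have h6 := (hbow x₀ v₀ x u hx₀ hU t t 1 (by linarith) (by linarith) le_rfl (by linarith)
      (by linarith)).1
    calc ENNReal.ofReal c = ∫⁻ _ in Icc t (t + 1), ENNReal.ofReal c := by simp
      _ ≤ ∫⁻ s in Icc t (t + 1), ENNReal.ofReal (Dn G (C.pr x, u) 0 s) *
          {y | C.dd (C.gd x₀ v₀ t) y ≤ 2}.indicator 1 (C.gd x u s) := by
        refine setLIntegral_mono' measurableSet_Icc fun s hs => ?_
        have h7 : |s - t| ≤ 1 := abs_le.2 ⟨by linarith [hs.1], by linarith [hs.2]⟩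
        have h8 : C.dd (C.gd x₀ v₀ t) (C.gd x u s) ≤ 2 := by
          have := C.dd_triangle H.a_pos.le (C.gd x₀ v₀ t) (C.gd x u t) (C.gd x u s)
          rw [hU.dd_gd] at this
          linarith
        rw [indicator_of_mem (show _ ∈ {y | C.dd (C.gd x₀ v₀ t) y ≤ 2} from h8), Pi.one_apply,
          mul_one]
        refine ENNReal.ofReal_le_ofReal ?_
        rw [hc, div_le_iff₀' hD]
        refine le_trans (Real.exp_le_exp.2 ?_) ((hDn _ hU).2 s (ht.trans hs.1))
        have h9 := hadd _ hU t (s - t)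
        have h10 := hSt _ (fl_US hU t) (s - t)
        rw [add_sub_cancel] at h9
        nlinarith [abs_le.1 h6, neg_abs_le (St G (s - t) (fl G ((C.pr x, u), t)))]
      _ ≤ _ := lintegral_mono_set fun s hs => lt_of_lt_of_le (by linarith) hs.1
  refine (le_ofReal_div hc0 key).trans (le_of_eq ?_)
  rw [hc, Real.exp_sub, Real.exp_neg]
  congr 1
  field_simp

/-- lower bound for the slices -/
lemma slice_low (hHol : UHolS) (hDn : DnS) {ε : ℝ} (hε : 0 < ε) : ∃ δ c : ℝ, 0 < δ ∧ 0 < c ∧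
    ∀ z ∈ US G, ∀ t, 2 ≤ t → ∀ p ∈ S ∩ Metric.ball z.1 δ,
      ENNReal.ofReal (c * Real.exp (-St G t z)) ≤ nuF G p (Prod.mk p ⁻¹' cB G t ε z) := by
  obtain ⟨r0, hr0, -, hlift⟩ := C.exists_r0 H
  obtain ⟨Ks, hKs, hseg⟩ := C.seg_up H
  obtain ⟨θ, Kb, -, -, hbow⟩ := C.bowen H hHol
  obtain ⟨D, hD, hDn⟩ := hDn n N a S G H
  obtain ⟨δ, hδ, h1, h2, h3⟩ : ∃ δ : ℝ, 0 < δ ∧ δ ≤ r0 ∧ 2 * δ ≤ 1 ∧ Ks * (2 * δ) ≤ ε := by
    refine ⟨min r0 (min (1 / 2) (ε / (2 * Ks))), by positivity, min_le_left _ _, ?_, ?_⟩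
    · have := (min_le_right r0 _).trans (min_le_left (1 / 2) (ε / (2 * Ks))); linarith
    · have := (min_le_right r0 _).trans (min_le_right (1 / 2) (ε / (2 * Ks)))
      rw [le_div_iff₀ (by positivity)] at this
      linarith
  obtain ⟨c, hc, hvol⟩ := C.vol_ball_ge H (R := 2 * δ) (by positivity)
  refine ⟨δ, c / (4 * D * Real.exp Kb), hδ, by positivity, fun z hz t ht p hp => ?_⟩
  obtain ⟨z1, v₀⟩ := z
  obtain ⟨x₀, rfl, hx₀⟩ := C.exists_un hz
  have h4 : ‖C.pr x₀ - p‖ ≤ δ := by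
    rw [← dist_eq_norm, dist_comm]
    exact le_of_lt hp.2
  obtain ⟨x, rfl, hx⟩ := hlift x₀ p hp.1 (h4.trans h1)
  set K : ℝ := D * Real.exp (St G t (C.pr x₀, v₀) + Kb) with hK
  have hK0 : 0 < K := by positivity
  have hF : MeasurableSet {y | C.dd (C.gd x₀ v₀ t) y < 2 * δ} :=
    measurableSet_lt (measurable_dd C _) measurable_const
  have key : ENNReal.ofReal c ≤ ENNReal.ofReal (K * 4) *
      nuF G (C.pr x) (Prod.mk (C.pr x) ⁻¹' cB G t ε (C.pr x₀, v₀)) := by
    refine (hvol (C.gd x₀ v₀ t)).trans ?_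
    rw [← lintegral_indicator_one hF, C.polar H x (measurable_one.indicator hF),
      ← lintegral_indicator_const (measurable_prodMk_left (measurableSet_cB _ _ _))]
    refine lintegral_mono_ae ((ae_nuF H hp.1).mono fun u hU => ?_)
    have hU : C.Un x u := hU
    calc _ ≤ ∫⁻ s in Ioi (0 : ℝ), (Icc (t - 2) (t + 2)).indicator (fun _ =>
          (Prod.mk (C.pr x) ⁻¹' cB G t ε (C.pr x₀, v₀)).indicator (fun _ => ENNReal.ofReal K) u) s := by
          refine setLIntegral_mono' measurableSet_Ioi fun s hs => ?_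
          by_cases h5 : C.gd x u s ∈ {y | C.dd (C.gd x₀ v₀ t) y < 2 * δ}
          swap
          · rw [indicator_of_notMem h5, mul_zero]; exact zero_le
          have h6 : C.dd (C.gd x₀ v₀ t) (C.gd x u s) ≤ 2 * δ := le_of_lt h5
          have h7 : C.dd x₀ x ≤ 2 * δ := by linarith
          have h8 := abs_le.1 (C.seg_close H hx₀ hU (by linarith) (le_of_lt hs) h7 h6).1
          have h9 : u ∈ Prod.mk (C.pr x) ⁻¹' cB G t ε (C.pr x₀, v₀) := ⟨hU, fun r hr => by
            rw [dist_comm]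
            exact (hseg x₀ v₀ x u hx₀ hU t s _ ht (le_of_lt hs) h7 h6 r hr).trans h3⟩
          have h10 := abs_le.1 (hbow x₀ v₀ x u hx₀ hU t s _ (by linarith) (le_of_lt hs) h2 h7 h6).1
          rw [indicator_of_mem h5, Pi.one_apply, mul_one,
            indicator_of_mem (show s ∈ Icc (t - 2) (t + 2) from ⟨by linarith, by linarith⟩),
            indicator_of_mem h9]
          refine ENNReal.ofReal_le_ofReal (((hDn _ hU).1 s (le_of_lt hs)).trans ?_)
          exact mul_le_mul_of_nonneg_left (Real.exp_le_exp.2 (by linarith)) hD.le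
      _ ≤ ∫⁻ s, (Icc (t - 2) (t + 2)).indicator (fun _ =>
          (Prod.mk (C.pr x) ⁻¹' cB G t ε (C.pr x₀, v₀)).indicator (fun _ => ENNReal.ofReal K) u) s :=
          setLIntegral_le_lintegral _ _
      _ = _ := by
          rw [lintegral_indicator_const measurableSet_Icc, Real.volume_Icc,
            show t + 2 - (t - 2) = 4 by ring, ENNReal.ofReal_mul hK0.le]
          by_cases h5 : u ∈ Prod.mk (C.pr x) ⁻¹' cB G t ε (C.pr x₀, v₀)
          · rw [indicator_of_mem h5, indicator_of_mem h5]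
          · rw [indicator_of_notMem h5, indicator_of_notMem h5, zero_mul]
  refine le_trans (le_of_eq ?_) (ofReal_div_le (by positivity) key)
  rw [hK, Real.exp_add, Real.exp_neg]
  congr 1
  field_simp

end Vol

variable (H : Hyp n N a S)
include C H

/-- Let `z = (pr x₀, v₀)`, `y₀ = gd x₀ v₀ t`, `t ≥ 1` (small `t`: `μ ≤ 1`, `St_basic`).
`nu B ≤ μHE S * sup_p nuF p (slice)` (`lintegral_nu`; `fB` is relatively open in `US`, hence
measurable).  If the slice over `p` is nonempty lift `p` to `x` (`exists_r0`); for `u` in the slice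
`dd y₀ (gd x u t) ≤ 2ε` (`lift_close`), so by `polar` at `x`
`K ≥ vol {dd y₀ · ≤ 2} ≥ ∫_{slice} ∫_t^{t+1} Dn ≥ nuF(slice) * c e^{St t z}` (`DnS`, `bowen`,
`St_basic`). -/
lemma volUp (hMu : MuS) (hHol : UHolS) (hDn : DnS) : En.VolUp (US G) (ph G) (mu G) (tau G) := by
  obtain ⟨ε, K, hε, hK, h⟩ := Vol.slice_up C H hHol hDn
  obtain ⟨-, B, hB, hSt⟩ := St_basic H hHol
  have hP := (hMu n N a S G H).2.2.1
  obtain ⟨m, hm, hmu⟩ := Vol.mu_eq hP
  have hM := (muHE_lt_top H.sub H.cpt).ne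
  have hM0 : 0 ≤ (μHE[n] S).toReal := ENNReal.toReal_nonneg
  refine ⟨ε, hε, m * K * (μHE[n] S).toReal + Real.exp B, by positivity, fun z hz t ht => ?_⟩
  change _ ≤ _ * Real.exp (-St G t z)
  have he := Real.exp_pos (-St G t z)
  rcases le_total t 1 with h1 | h1
  · have h2 : 1 ≤ Real.exp B * Real.exp (-St G t z) := by
      rw [← Real.exp_add]
      refine Real.one_le_exp ?_
      have := hSt z hz t
      rw [abs_of_nonneg ht] at this
      nlinarith [le_abs_self (St G t z)]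
    have h3 : 0 ≤ m * K * (μHE[n] S).toReal * Real.exp (-St G t z) := by positivity
    refine measureReal_le_one.trans ?_
    linarith
  · have h2 : En.fB (US G) (ph G) t ε z ⊆ Vol.cB G t ε z := fun y hy =>
      ⟨hy.1, fun s hs => (hy.2 s hs).le⟩
    have h3 : mu G (Vol.cB G t ε z) ≤
        ENNReal.ofReal (m * (K * Real.exp (-St G t z) * (μHE[n] S).toReal)) := by
      rw [hmu, Vol.nu_slice (Vol.measurableSet_cB _ _ _), ENNReal.ofReal_mul hm.le,
        ENNReal.ofReal_mul (by positivity), ENNReal.ofReal_toReal hM, ← setLIntegral_const]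
      exact mul_le_mul_right (setLIntegral_mono' G.isClosed.measurableSet (h z hz t h1)) _
    refine (ENNReal.toReal_le_of_le_ofReal (by positivity) ((measure_mono h2).trans h3)).trans ?_
    have h4 : 0 ≤ Real.exp B * Real.exp (-St G t z) := by positivity
    linarith

/-- For `t ≥ 2`, `p ∈ S ∩ ball z.1 δ` with lift `x`: every unit `u` with `dd y₀ (gd x u s) < δ` for
some `s > 0` lies in the slice (`seg_up`), `|s - t| ≤ 4δ` (`seg_close`) and
`Dn (p,u) 0 s ≤ K e^{St t z}` (`DnS`, `bowen`), so by `polar`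
`c ≤ vol {dd y₀ · < δ} ≤ nuF(slice) * 8δ K e^{St t z}`; integrate over `p` (`muHE_ball_ge`).
For `t ≤ 2` use `fB 2 ⊆ fB t` and `St_basic`. -/
lemma volLow (hMu : MuS) (hHol : UHolS) (hDn : DnS) : En.VolLow (US G) (ph G) (mu G) (tau G) := by
  intro ε hε
  obtain ⟨δ, c, hδ, hc, h⟩ := Vol.slice_low C H hHol hDn (half_pos hε)
  obtain ⟨-, B, hB, hSt⟩ := St_basic H hHol
  obtain ⟨c', hc', hball⟩ := C.muHE_ball_ge H hδ
  have hP := (hMu n N a S G H).2.2.1
  obtain ⟨m, hm, hmu⟩ := Vol.mu_eq hP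
  have key : ∀ z ∈ US G, ∀ t, 2 ≤ t →
      m * c * c' * Real.exp (-St G t z) ≤ (mu G).real (En.fB (US G) (ph G) t ε z) := by
    intro z hz t ht
    have h2 : Vol.cB G t (ε / 2) z ⊆ En.fB (US G) (ph G) t ε z := fun y hy =>
      ⟨hy.1, fun s hs => (hy.2 s hs).trans_lt (half_lt_self hε)⟩
    have hm' : MeasurableSet (S ∩ Metric.ball z.1 δ) :=
      G.isClosed.measurableSet.inter measurableSet_ball
    have h3 : ENNReal.ofReal (m * (c * Real.exp (-St G t z) * c')) ≤
        mu G (Vol.cB G t (ε / 2) z) := by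
      rw [hmu, Vol.nu_slice (Vol.measurableSet_cB _ _ _), ENNReal.ofReal_mul hm.le,
        ENNReal.ofReal_mul (by positivity)]
      refine mul_le_mul_right ((mul_le_mul_right (hball z.1 hz.1.1) _).trans ?_) _
      rw [← setLIntegral_const]
      exact (setLIntegral_mono' hm' (h z hz t ht)).trans (lintegral_mono_set inter_subset_left)
    refine le_trans (le_of_eq (by ring)) ((ENNReal.ofReal_le_iff_le_toReal (measure_ne_top _ _)).1
      (h3.trans (measure_mono h2)))
  refine ⟨m * c * c' * Real.exp (-(4 * B)), by positivity, fun z hz t ht => ?_⟩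
  change _ * Real.exp (-St G t z) ≤ _
  have h0 : 0 ≤ m * c * c' := by positivity
  rw [mul_assoc, ← Real.exp_add]
  rcases le_total 2 t with h1 | h1
  · exact (mul_le_mul_of_nonneg_left (Real.exp_le_exp.2 (by linarith)) h0).trans (key z hz t h1)
  · have h2 : En.fB (US G) (ph G) 2 ε z ⊆ En.fB (US G) (ph G) t ε z := fun y hy =>
      ⟨hy.1, fun s hs => hy.2 s ⟨hs.1, hs.2.trans h1⟩⟩
    refine le_trans ?_ ((key z hz 2 le_rfl).trans (measureReal_mono h2))
    refine mul_le_mul_of_nonneg_left (Real.exp_le_exp.2 ?_) h0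
    have h3 := hSt z hz t
    have h4 := hSt z hz 2
    rw [abs_of_nonneg ht] at h3
    rw [abs_two] at h4
    nlinarith [le_abs_self (St G 2 z), neg_abs_le (St G t z)]

omit C H in
theorem _root_.Crest.Agent.N221.volS (hCov : CovS) (hMu : MuS) (hHol : UHolS) (hDn : DnS) :
    VolS := fun n N a S G H =>
  (hCov n N a S G H).elim fun C => ⟨C.volUp H hMu hHol hDn, C.volLow H hMu hHol hDn⟩

end Crest.Agent.N221.Cov
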