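import Crest.Agent.N221.C.Base
import Crest.Agent.R241.D3e
import Crest.Agent.R241.D5a

/-!
Row 221, block C: comparison inequalities (curvature `≤ -a²`) in the cover.
-/

set_option autoImplicit false
set_option linter.unusedSectionVars false
set_option linter.unusedVariables false

open MeasureTheory Set Filter Topology
open scoped ContDiff RealInnerProductSpace ENNReal
open Crest.GeometryTopology.Submanifold
open Crest.Agent.R241.DDefs Crest.Agent.R241.D2
open Crest.Agent.R208.J Crest.Agent.R208.L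

noncomputable section

namespace Crest.Agent.N221.Cov

variable {n N : ℕ} {a : ℝ} {S : Set (Euc N)} {G : Geo n N (-(a ^ 2)) S} (C : Cov G)

variable {x y p : Euc n} {v w : Euc N}

lemma inner_lg_fderiv (p y u : Euc n) :
    ⟪C.lg p y, fderiv ℝ (C.lg p) y u⟫ = -(C.dd p y * ⟪C.dir y p, fderiv ℝ C.pr y u⟫) := by
  obtain ⟨h1, h2⟩ := C.fderiv_Exp_lg p y u
  have h3 := C.lg_gd (C.lg_mem p y) 1 0
  rw [C.gd_zero, gd, one_smul, C.ex_lg, C.lg_eq_dir y p, zero_sub, neg_smul, one_smul] at h3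
  rw [← R241.D3c.gauss G (C.pr_mem p) (C.lg_mem p y) h1, h2, C.dd_comm p y, ← real_inner_smul_left,
    h3, inner_neg_left, neg_neg, real_inner_comm]
  rfl

/-- first variation (Gauss lemma `R241.D3c.gauss` + `fderiv_Exp_lg` + `vel_dir`) -/
lemma hasFDerivAt_dd (h : y ≠ p) :
    HasFDerivAt (C.dd p) (-(innerSL ℝ (C.dir y p)).comp (fderiv ℝ C.pr y)) y := by
  have h0 : ‖C.lg p y‖ ≠ 0 := (C.dd_pos h.symm).ne'
  have h1 := (((C.contDiff_lg p).differentiable (by simp) y).hasFDerivAt.norm_sq).sqrt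
    (pow_ne_zero 2 h0)
  simp only [Real.sqrt_sq (norm_nonneg _)] at h1
  refine h1.congr_fderiv (ContinuousLinearMap.ext fun u => ?_)
  simp [C.inner_lg_fderiv, dd]
  field_simp

lemma hasDerivAt_dd (hv : v ∈ G.T (C.pr x)) {s : ℝ} (h : C.gd x v s ≠ p) :
    HasDerivAt (fun s => C.dd p (C.gd x v s)) (-⟪C.dir (C.gd x v s) p, C.vel x v s⟫) s := by
  have h1 := (C.hasFDerivAt_dd h).comp_hasDerivAt s
    ((C.contDiff_gd_t x v).differentiable (by simp) s).hasDerivAt
  exact h1.congr_deriv (by simp [C.fderiv_pr_deriv_gd hv])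

variable (ha : 0 < a)
include ha

/-- Hessian inequality for `cosh (a dd p ·)` along a unit speed geodesic
(`R241.D3e.hess_curve` with `c s = lg p (gd x v s)`, `cosh (a r) = 1 + a² zk a r`; the value of the
first derivative by uniqueness of derivatives and `hasDerivAt_dd`, resp. `IsLocalMin` at `p`). -/
lemma hess (h : C.Un x v) (p : Euc n) : ∃ f'' : ℝ → ℝ, ∀ s,
    HasDerivAt (fun s => Real.cosh (a * C.dd p (C.gd x v s)))
      (-(a * Real.sinh (a * C.dd p (C.gd x v s)) * ⟪C.dir (C.gd x v s) p, C.vel x v s⟫)) s ∧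
    HasDerivAt (fun s =>
      -(a * Real.sinh (a * C.dd p (C.gd x v s)) * ⟪C.dir (C.gd x v s) p, C.vel x v s⟫)) (f'' s) s ∧
    a ^ 2 * Real.cosh (a * C.dd p (C.gd x v s)) ≤ f'' s := by
  obtain ⟨f', f'', hf⟩ := R241.D3e.hess_curve ha.le G (C.pr_mem p) (C.pr_mem x) h.mem
    ((C.contDiff_lg p).comp (C.contDiff_gd_t x v)) (fun r => C.lg_mem p _) fun r => by
      rw [Function.comp_apply, ← C.pr_ex p _ (C.lg_mem p _), C.ex_lg,
        ← C.pr_ex x _ ((G.T _).smul_mem r h.mem), gd]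
  have e : (fun s => -(a * Real.sinh (a * C.dd p (C.gd x v s)) *
      ⟪C.dir (C.gd x v s) p, C.vel x v s⟫)) = fun s => a ^ 2 * f' s := by
    funext s
    have h1 := ((C.contDiff_lg p).differentiable (by simp) _).hasFDerivAt.comp_hasDerivAt s
      ((C.contDiff_gd_t x v).differentiable (by simp) s).hasDerivAt
    rw [(hf s).1.unique (R241.D3e.zk_norm_deriv h1), Function.comp_apply, C.inner_lg_fderiv,
      C.fderiv_pr_deriv_gd h.mem, R241.sn, if_neg ha.ne', ← dd]
    rcases eq_or_ne (C.dd p (C.gd x v s)) 0 with h0 | h0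
    · simp [h0]
    · field_simp
  refine ⟨fun s => a ^ 2 * f'' s, fun s => ⟨?_, e ▸ (hf s).2.1.const_mul _, ?_⟩⟩
  · rw [congrFun e s]
    simp only [← R241.D3c.one_add_zk]
    exact ((hf s).1.const_mul (a ^ 2)).const_add 1
  · have := (hf s).2.2
    rw [h.norm, one_pow, one_mul, R241.D3c.one_add_zk] at this
    exact mul_le_mul_of_nonneg_left this (sq_nonneg a)

/-- CAT(-a²) inequality (`R241.D5a.comparison_hyp` after rescaling to `[0,1]`) -/
lemma cat (h : C.Un x v) (p : Euc n) {s r : ℝ} (hs : 0 ≤ s) (hsr : s ≤ r) :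
    Real.sinh (a * r) * Real.cosh (a * C.dd p (C.gd x v s)) ≤
      Real.sinh (a * (r - s)) * Real.cosh (a * C.dd p x) +
        Real.sinh (a * s) * Real.cosh (a * C.dd p (C.gd x v r)) := by
  rcases (hs.trans hsr).eq_or_lt with rfl | hr
  · simp [hsr.antisymm hs]
  obtain ⟨f'', hf⟩ := C.hess ha h p
  have hl : ∀ t : ℝ, HasDerivAt (fun t => r * t) r t := fun t => by
    simpa using (hasDerivAt_id t).const_mul r
  have := R241.D5.comparison_hyp (mul_pos ha hr).le (fun t _ => (hf (r * t)).1.comp t (hl t))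
    (fun t _ => ((hf (r * t)).2.1.comp t (hl t)).mul_const r)
    (fun t _ => by
      have := mul_le_mul_of_nonneg_right (hf (r * t)).2.2 (sq_nonneg r)
      simp only [Function.comp_apply]
      linarith) (s := s / r) ⟨by positivity, (div_le_one hr).2 hsr⟩
  simp only [Function.comp_apply, mul_zero, mul_one, C.gd_zero, mul_div_cancel₀ _ hr.ne'] at this
  convert this using 4 <;> field_simp

/-- hyperbolic law of cosines as an inequality: `F'' ≥ a² F` implies
`F s ≥ F 0 cosh (a s) + F' 0 sinh (a s) / a` -/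
lemma coslaw (h : C.Un x v) (p : Euc n) {s : ℝ} (hs : 0 ≤ s) :
    Real.cosh (a * C.dd x p) * Real.cosh (a * s) -
      Real.sinh (a * C.dd x p) * Real.sinh (a * s) * ⟪C.dir x p, v⟫ ≤
      Real.cosh (a * C.dd p (C.gd x v s)) := by
  rcases hs.eq_or_lt with rfl | hs
  · simp [C.gd_zero, C.dd_comm x p]
  obtain ⟨f'', hf⟩ := C.hess ha h p
  have h1 := ((((hasDerivAt_id (0 : ℝ)).const_sub s).const_mul a).sinh.mul_const
    (Real.cosh (a * C.dd p x))).add (((hasDerivAt_id (0 : ℝ)).const_mul a).sinh.mul_const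
      (Real.cosh (a * C.dd p (C.gd x v s)))) |>.sub ((hf 0).1.const_mul (Real.sinh (a * s)))
  have h2 := ge_of_tendsto h1.tendsto_slope_zero_right (b := 0) (by
    filter_upwards [Ioo_mem_nhdsGT hs] with t ht
    have := C.cat ha h p ht.1.le ht.2.le
    refine smul_nonneg (inv_nonneg.2 ht.1.le) ?_
    simp [C.gd_zero]
    linarith)
  simp only [id, sub_zero, mul_zero, Real.cosh_zero, C.gd_zero, C.vel_zero] at h2
  rw [C.dd_comm x p]
  refine le_of_mul_le_mul_left ?_ ha
  linarith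

/-- two geodesics from one point diverge exponentially.  Apply `cat` twice (`p = gd x w s` against
`gd x v` on `[0,r]`, then `p = gd x v r` against `gd x w` on `[0,r]`); the addition formulas give
`sinh(ar)² (cosh (a d_s) - 1) ≤ sinh(as)² (cosh (a d_r) - 1)`, and `cosh u - 1 = 2 sinh(u/2)²`. -/
lemma h2 (hv : C.Un x v) (hw : C.Un x w) {s r : ℝ} (hs : 0 ≤ s) (hsr : s ≤ r) :
    Real.sinh (a * r) * Real.sinh (a * C.dd (C.gd x v s) (C.gd x w s) / 2) ≤
      Real.sinh (a * s) * Real.sinh (a * C.dd (C.gd x v r) (C.gd x w r) / 2) := by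
  have hr := hs.trans hsr
  have h1 := C.cat ha hv (C.gd x w s) hs hsr
  have h2 := C.cat ha hw (C.gd x v r) hs hsr
  rw [C.dd_comm _ x, hw.dd_gd_zero, abs_of_nonneg hs, C.dd_comm, C.dd_comm (C.gd x w s)] at h1
  rw [C.dd_comm _ x, hv.dd_gd_zero, abs_of_nonneg hr] at h2
  have c : ∀ u, Real.cosh u = 1 + 2 * Real.sinh (u / 2) ^ 2 := fun u => by
    rw [← mul_div_cancel₀ u two_ne_zero, Real.cosh_two_mul, Real.cosh_sq]; simp; ring
  have s1 : 0 ≤ Real.sinh (a * s) := by positivity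
  have s2 : 0 ≤ Real.sinh (a * r) := by positivity
  have := C.dd_nonneg (C.gd x v r) (C.gd x w r)
  refine le_of_sq_le_sq ?_ (by positivity)
  rw [c (a * C.dd (C.gd x v s) _)] at h1
  rw [c (a * C.dd _ (C.gd x w r))] at h2
  rw [mul_sub, Real.sinh_sub] at h1 h2
  have := mul_le_mul_of_nonneg_left h1 s2
  have := mul_le_mul_of_nonneg_left h2 s1
  have := Real.cosh_sq (a * r)
  have := Real.cosh_sq (a * s)
  nlinarith

lemma h2_mono (hv : C.Un x v) (hw : C.Un x w) {s r : ℝ} (hs : 0 ≤ s) (hsr : s ≤ r) :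
    C.dd (C.gd x v s) (C.gd x w s) ≤ C.dd (C.gd x v r) (C.gd x w r) := by
  rcases hsr.eq_or_lt with rfl | hr
  · rfl
  have := C.dd_nonneg (C.gd x v r) (C.gd x w r)
  have h1 := (C.h2 ha hv hw hs hsr).trans (mul_le_mul_of_nonneg_right
    (Real.sinh_le_sinh.2 (mul_le_mul_of_nonneg_left hsr ha.le)) (by positivity))
  have h2 := Real.sinh_le_sinh.1 (le_of_mul_le_mul_left h1
    (Real.sinh_pos_iff.2 (mul_pos ha (hs.trans_lt hr))))
  exact le_of_mul_le_mul_left (by linarith) ha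

lemma h2_exp (hv : C.Un x v) (hw : C.Un x w) {s r : ℝ} (hs : 0 ≤ s) (hsr : s ≤ r) :
    C.dd (C.gd x v s) (C.gd x w s) ≤ 2 / a * Real.exp (-(a * (r - s))) *
      Real.sinh (a * C.dd (C.gd x v r) (C.gd x w r) / 2) := by
  have := C.dd_nonneg (C.gd x v r) (C.gd x w r)
  have := C.dd_nonneg (C.gd x v s) (C.gd x w s)
  have h0 := Real.self_le_sinh_iff.2 (by positivity : 0 ≤ a * C.dd (C.gd x v s) (C.gd x w s) / 2)
  rw [mul_assoc, div_mul_eq_mul_div, le_div_iff₀ ha]
  rcases hsr.eq_or_lt with rfl | hr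
  · simp; linarith
  have e : Real.sinh (a * s) ≤ Real.sinh (a * r) * Real.exp (-(a * (r - s))) := by
    have : Real.exp (-(a * r) + -(a * (r - s))) ≤ Real.exp (-(a * s)) :=
      Real.exp_le_exp.2 (by nlinarith)
    rw [Real.sinh_eq, Real.sinh_eq, div_mul_eq_mul_div, sub_mul, ← Real.exp_add, ← Real.exp_add,
      show a * r + -(a * (r - s)) = a * s by ring]
    linarith
  have h1 := (C.h2 ha hv hw hs hsr).trans (mul_le_mul_of_nonneg_right e (by positivity))
  rw [mul_assoc] at h1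
  have h2 := le_of_mul_le_mul_left h1 (Real.sinh_pos_iff.2 (mul_pos ha (hs.trans_lt hr)))
  linarith

omit ha in
lemma abs_inner_dir (p P Q : Euc n) : |⟪C.dir p P, C.dir p Q⟫| ≤ 1 :=
  (abs_real_inner_le_norm _ _).trans
    (mul_le_one₀ (C.norm_dir_le _ _) (norm_nonneg _) (C.norm_dir_le _ _))

/-- `coslaw` for the geodesic from `p` to `Q`:
`cosh A cosh B - c sinh A sinh B = cosh (A+B) (1-c)/2 + cosh (A-B) (1+c)/2` -/
lemma gromov (p P Q : Euc n) :
    (1 - ⟪C.dir p P, C.dir p Q⟫) / 2 * Real.cosh (a * (C.dd p P + C.dd p Q)) ≤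
      Real.cosh (a * C.dd P Q) := by
  have h0 := mul_nonneg (neg_le_iff_add_nonneg'.1 (abs_le.1 (C.abs_inner_dir p P Q)).1)
    (Real.cosh_pos (a * C.dd p P - a * C.dd p Q)).le
  rw [Real.cosh_sub] at h0
  rw [mul_add, Real.cosh_add]
  rcases eq_or_ne p Q with rfl | h
  · simp [C.dd_self, C.dd_comm P p, dir, C.lg_self]
    linarith [Real.cosh_pos (a * C.dd p P)]
  have := C.coslaw ha (C.un_dir h) P (C.dd_nonneg p Q)
  rw [C.gd_dir] at this
  linarith

lemma gromov_exp (p P Q : Euc n) :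
    (1 - ⟪C.dir p P, C.dir p Q⟫) * Real.exp (a * (C.dd p P + C.dd p Q)) ≤
      4 * Real.exp (a * C.dd P Q) := by
  have h1 := C.gromov ha p P Q
  have h2 := mul_nonneg (sub_nonneg.2 (abs_le.1 (C.abs_inner_dir p P Q)).2)
    (Real.exp_pos (-(a * (C.dd p P + C.dd p Q)))).le
  have h3 : Real.exp (-(a * C.dd P Q)) ≤ Real.exp (a * C.dd P Q) :=
    Real.exp_le_exp.2 (neg_le_self (mul_nonneg ha.le (C.dd_nonneg P Q)))
  rw [Real.cosh_eq, Real.cosh_eq] at h1
  linarith

/-- `cosh (u + l) ≥ cosh u (1 + l tanh u)` -/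
lemma gromov_small (p P Q : Euc n) (h : 1 ≤ C.dd P Q) :
    (1 - ⟪C.dir p P, C.dir p Q⟫) * (Real.tanh a * (a * (C.dd p P + C.dd p Q - C.dd P Q))) ≤
      1 + ⟪C.dir p P, C.dir p Q⟫ := by
  have h1 := C.gromov ha p P Q
  have h2 := sub_nonneg.2 (abs_le.1 (C.abs_inner_dir p P Q)).2
  have h3 : 0 ≤ a * (C.dd p P + C.dd p Q - C.dd P Q) := mul_nonneg ha.le (by
    linarith [C.dd_triangle ha.le P p Q, C.dd_comm P p])
  rw [show a * (C.dd p P + C.dd p Q) = a * C.dd P Q + a * (C.dd p P + C.dd p Q - C.dd P Q) by ring,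
    Real.cosh_add] at h1
  generalize a * (C.dd p P + C.dd p Q - C.dd P Q) = l at *
  have c := Real.cosh_pos (a * C.dd P Q)
  have h4 : Real.tanh a * Real.cosh (a * C.dd P Q) ≤ Real.sinh (a * C.dd P Q) := by
    have := Real.sinh_nonneg_iff.2 (show 0 ≤ a * C.dd P Q - a by nlinarith)
    rw [Real.sinh_sub] at this
    rw [Real.tanh_eq_sinh_div_cosh, div_mul_eq_mul_div, div_le_iff₀ (Real.cosh_pos a)]
    linarith
  have h5 : Real.cosh (a * C.dd P Q) * (1 + Real.tanh a * l) ≤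
      Real.cosh (a * C.dd P Q) * Real.cosh l + Real.sinh (a * C.dd P Q) * Real.sinh l := by
    have := mul_le_mul_of_nonneg_left (Real.one_le_cosh l) c.le
    have := mul_le_mul h4 (Real.self_le_sinh_iff.2 h3) h3 (by positivity)
    linarith
  have h6 := mul_le_mul_of_nonneg_left h5 h2
  refine le_of_mul_le_mul_left ?_ c
  linarith

/-- thin triangles: `cat` for the geodesic from `P` to `Q` at the parameter `dd P p` -/
lemma thin (p P Q : Euc n) {l : ℝ} (hD : 1 ≤ C.dd P Q) (hA : C.dd P p ≤ C.dd P Q)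
    (hl : C.dd P p + C.dd p Q ≤ C.dd P Q + l) :
    Real.cosh (a * C.dd p (C.gd P (C.dir P Q) (C.dd P p))) ≤
      1 + a * l * Real.exp (a * l) / (1 - Real.exp (-(2 * a))) := by
  have hPQ : P ≠ Q := fun h => by rw [h, C.dd_self] at hD; linarith
  have hA0 := C.dd_nonneg P p
  have h1 := C.cat ha (C.un_dir hPQ) p hA0 hA
  have hl0 : 0 ≤ a * l := mul_nonneg ha.le (by linarith [C.dd_triangle ha.le P p Q])
  have h2 : Real.cosh (a * C.dd p Q) ≤ Real.cosh (a * (C.dd P Q - C.dd P p) + a * l) := by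
    have := mul_nonneg ha.le (C.dd_nonneg p Q)
    have : a * C.dd p Q ≤ a * (C.dd P Q - C.dd P p) + a * l := by nlinarith
    rwa [Real.cosh_le_cosh, abs_of_nonneg, abs_of_nonneg] <;> linarith
  rw [C.gd_dir, C.dd_comm p P] at h1
  have hD' : a * C.dd P Q = a * (C.dd P Q - C.dd P p) + a * C.dd P p := by ring
  have h2a : Real.exp (-(a * C.dd P Q)) ≤ Real.exp (a * C.dd P Q) * Real.exp (-(2 * a)) := by
    rw [← Real.exp_add, Real.exp_le_exp]; nlinarith
  have hs : 0 ≤ Real.sinh (a * C.dd P p) := by positivity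
  have hS : 0 < Real.sinh (a * C.dd P Q) := by positivity
  have hq : 0 < 1 - Real.exp (-(2 * a)) := sub_pos.2 (Real.exp_lt_one_iff.2 (by linarith))
  generalize a * l = m at *
  generalize a * (C.dd P Q - C.dd P p) = u at *
  have h3 : Real.cosh (u + m) ≤ Real.cosh u + Real.exp u * (m * Real.exp m) / 2 := by
    have e1 : Real.exp (-(u + m)) ≤ Real.exp (-u) := Real.exp_le_exp.2 (by linarith)
    have e2 : Real.exp m ≤ 1 + m * Real.exp m := by
      have := mul_le_mul_of_nonneg_right (Real.add_one_le_exp (-m)) (Real.exp_pos m).le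
      rw [← Real.exp_add, neg_add_cancel, Real.exp_zero] at this
      linarith
    have := mul_le_mul_of_nonneg_left e2 (Real.exp_pos u).le
    rw [Real.cosh_eq, Real.cosh_eq, Real.exp_add]
    linarith
  have h4 : Real.sinh (a * C.dd P p) * (Real.exp u * (m * Real.exp m) / 2) ≤
      Real.sinh (a * C.dd P Q) * (m * Real.exp m / (1 - Real.exp (-(2 * a)))) := by
    have e1 : Real.sinh (a * C.dd P p) * Real.exp u ≤ Real.exp (a * C.dd P Q) := by
      rw [hD', Real.exp_add, mul_comm, Real.sinh_eq]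
      exact mul_le_mul_of_nonneg_left (by
        linarith [Real.exp_pos (a * C.dd P p), Real.exp_pos (-(a * C.dd P p))]) (Real.exp_pos u).le
    have e2 : Real.exp (a * C.dd P Q) / 2 ≤ Real.sinh (a * C.dd P Q) / (1 - Real.exp (-(2 * a))) := by
      rw [le_div_iff₀ hq, Real.sinh_eq]; linarith
    calc _ = Real.sinh (a * C.dd P p) * Real.exp u / 2 * (m * Real.exp m) := by ring
      _ ≤ Real.sinh (a * C.dd P Q) / (1 - Real.exp (-(2 * a))) * (m * Real.exp m) :=
        mul_le_mul_of_nonneg_right (by linarith) (by positivity)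
      _ = _ := by ring
  have h5 := mul_le_mul_of_nonneg_left (h2.trans h3) hs
  have h6 := Real.sinh_add u (a * C.dd P p)
  rw [← hD'] at h6
  refine le_of_mul_le_mul_left ?_ hS
  linarith

/-- geodesics to a common endpoint `Q = gd x v T` converge exponentially (`h2_exp` at the base
point `Q`, radii `dd y Q - s ≤ dd y Q`; `|T - dd y Q| ≤ dd x y`) -/
lemma tail (hv : C.Un x v) (y : Euc n) {T ρ s : ℝ} (hT : 0 ≤ T) (hρ : C.dd x y ≤ ρ)
    (hs : 0 ≤ s) (hsT : s ≤ C.dd y (C.gd x v T)) :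
    |T - C.dd y (C.gd x v T)| ≤ ρ ∧
    C.dd (C.gd y (C.dir y (C.gd x v T)) s) (C.gd x v (s + (T - C.dd y (C.gd x v T)))) ≤ 2 * ρ ∧
    C.dd (C.gd y (C.dir y (C.gd x v T)) s) (C.gd x v (s + (T - C.dd y (C.gd x v T)))) ≤
      2 / a * Real.exp (-(a * s)) * Real.sinh (a * ρ) := by
  have hρ0 := (C.dd_nonneg x y).trans hρ
  have h1 : |T - C.dd y (C.gd x v T)| ≤ ρ := by
    have := C.abs_dd_sub_le ha.le (C.gd x v T) x y
    rw [C.dd_comm _ x, hv.dd_gd_zero, abs_of_nonneg hT, C.dd_comm _ y] at this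
    exact this.trans hρ
  refine ⟨h1, ?_⟩
  rcases eq_or_ne (C.gd x v T) y with h | h
  · rw [h, C.dd_self] at hsT ⊢
    rw [hsT.antisymm hs, C.gd_zero, sub_zero, zero_add, h, C.dd_self]
    exact ⟨by positivity, by positivity⟩
  have e : ∀ t, C.gd (C.gd x v T) (-C.vel x v T) t = C.gd x v (T - t) := fun t => by
    rw [C.gd_neg, C.gd_add hv.mem, sub_eq_add_neg]
  have h2 := C.h2_mono ha (C.un_dir h) (Un.neg C (Un.vel C hv T)) (sub_nonneg.2 hsT) (sub_le_self _ hs)
  have h3 := C.h2_exp ha (C.un_dir h) (Un.neg C (Un.vel C hv T)) (sub_nonneg.2 hsT) (sub_le_self _ hs)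
  have h4 : C.dd y (C.gd x v (T - C.dd y (C.gd x v T))) ≤ 2 * ρ := by
    have := C.dd_triangle ha.le y x (C.gd x v (T - C.dd y (C.gd x v T)))
    rw [hv.dd_gd_zero, C.dd_comm y x] at this
    linarith
  rw [e, e, C.dd_comm y, ← C.gd_dir_rev, C.gd_dir, C.dd_comm _ y,
    show T - (C.dd y (C.gd x v T) - s) = s + (T - C.dd y (C.gd x v T)) by ring] at h2 h3
  rw [sub_sub_cancel] at h3
  exact ⟨h2.trans h4, h3.trans (mul_le_mul_of_nonneg_left
    (Real.sinh_le_sinh.2 (by nlinarith)) (by positivity))⟩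

end Crest.Agent.N221.Cov
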