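import Crest.Agent.N221.C.Loc
import Crest.Agent.N221.C.Cat
import Crest.Agent.N221.Base

/-!
Row 221, block C: two geodesics; exponential shadowing and bounded distortion of `St`.
-/

set_option autoImplicit false
set_option linter.unusedSectionVars false
set_option linter.unusedVariables false

open MeasureTheory Set Filter Topology
open scoped ContDiff RealInnerProductSpace ENNReal
open Crest.GeometryTopology.Submanifold
open Crest.Agent.R241.DDefs Crest.Agent.R241.D2
open Crest.Agent.R208.J Crest.Agent.R208.L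

noncomputable section

namespace Crest.Agent.N221.Cov

variable {n N : ℕ} {a : ℝ} {S : Set (Euc N)} {G : Geo n N (-(a ^ 2)) S} (C : Cov G)

namespace Tw

lemma tau_cont (H : Hyp n N a S) (hHol : UHolS) : ContinuousOn (tau G) (US G) := by
  obtain ⟨θ, K, hθ, -, -, h⟩ := hHol n N a S G H
  intro w hw
  have h1 : Continuous fun z : TT N => K * dist z w ^ θ :=
    continuous_const.mul ((continuous_id.dist continuous_const).rpow_const fun _ => Or.inr hθ.le)
  have h2 := (h1.tendsto w).mono_left (nhdsWithin_le_nhds (s := US G))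
  rw [dist_self, Real.zero_rpow hθ.ne', mul_zero] at h2
  refine tendsto_iff_dist_tendsto_zero.2 (squeeze_zero' (.of_forall fun _ => dist_nonneg) ?_ h2)
  filter_upwards [self_mem_nhdsWithin] with z hz using (h z hz w hw).2

lemma tau_fl (H : Hyp n N a S) (hHol : UHolS) {z : TT N} (hz : z ∈ US G) :
    Continuous fun s => tau G (fl G (z, s)) :=
  (tau_cont H hHol).comp_continuous (continuous_fl_t hz.1) (fl_US hz)

lemma int_exp {c : ℝ} (hc : 0 < c) (t : ℝ) : ∫ s in (0 : ℝ)..t, Real.exp (-(c * s)) ≤ 1 / c := by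
  rw [intervalIntegral.integral_eq_sub_of_hasDerivAt (f := fun s => -Real.exp (-(c * s)) / c)
    (fun s _ => ?_) (Continuous.intervalIntegrable (by fun_prop) _ _)]
  · have : 0 ≤ Real.exp (-(c * t)) / c := by positivity
    simp only [mul_zero, neg_zero, Real.exp_zero, neg_div]
    linarith
  · have h := ((((hasDerivAt_id s).const_mul c).neg).exp.neg).div_const c
    refine h.congr_deriv ?_
    simp only [id, Pi.neg_apply]
    field_simp

lemma core {f g ε : ℝ → ℝ} (hf : Continuous f) (hg : Continuous g) (hε : Continuous ε)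
    {c M t : ℝ} (ht : 0 ≤ t) (hM : 0 ≤ M) (hi : ∫ s in (0 : ℝ)..t, Real.exp (-(c * ε s)) ≤ 1 / c)
    (h : ∀ s ∈ Icc 0 t, |f s - g s| ≤ M * Real.exp (-(c * ε s))) :
    |(∫ s in (0 : ℝ)..t, f s) - ∫ s in (0 : ℝ)..t, g s| ≤ M * (1 / c) := by
  rw [← intervalIntegral.integral_sub (hf.intervalIntegrable _ _) (hg.intervalIntegrable _ _)]
  refine (intervalIntegral.norm_integral_le_of_norm_le (f := fun s => f s - g s)
    (g := fun s => M * Real.exp (-(c * ε s))) ht (.of_forall fun s hs => h s ⟨hs.1.le, hs.2⟩)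
    (Continuous.intervalIntegrable (by fun_prop) _ _)).trans ?_
  rw [intervalIntegral.integral_const_mul]
  exact mul_le_mul_of_nonneg_left hi hM

lemma sinh_le {a ρ : ℝ} (ha : 0 < a) (h0 : 0 ≤ ρ) (h1 : ρ ≤ 1) :
    Real.sinh (a * ρ) ≤ a * Real.exp a * ρ := by
  have h2 := Real.add_one_le_exp (-(2 * (a * ρ)))
  have h3 : Real.exp (-(a * ρ)) = Real.exp (a * ρ) * Real.exp (-(2 * (a * ρ))) := by
    rw [← Real.exp_add]; congr 1; ring
  have h4 : Real.exp (a * ρ) ≤ Real.exp a := Real.exp_le_exp.2 (by nlinarith)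
  have h5 := mul_le_mul_of_nonneg_left h2 (Real.exp_pos (a * ρ)).le
  have h6 := mul_le_mul_of_nonneg_left h4 (mul_nonneg ha.le h0)
  rw [Real.sinh_eq, h3]
  nlinarith

/-- exponential closeness of the positions gives exponential closeness upstairs -/
lemma up_exp (H : Hyp n N a S) : ∃ K : ℝ, 0 < K ∧ ∀ x v y w, C.Un x v → C.Un y w →
    ∀ (c r δ : ℝ) (ε : ℝ → ℝ), 0 ≤ c → 2 ≤ r → (∀ s e, (e = 1 ∨ e = -1) → ε s - 1 ≤ ε (s + e)) →
    (∀ s ∈ Icc 0 r, C.dd (C.gd x v s) (C.gd y w (δ + s)) ≤ c * Real.exp (-(a * ε s))) →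
    ∀ s ∈ Icc 0 r, dist (fl G ((C.pr x, v), s)) (fl G ((C.pr y, w), δ + s)) ≤
      K * c * Real.exp (-(a * ε s)) := by
  obtain ⟨K, hK, h⟩ := C.up_close H
  refine ⟨K * (1 + Real.exp a), by positivity, fun x v y w hv hw c r δ ε hc hr hε hd s hs => ?_⟩
  obtain ⟨e, he, hse⟩ : ∃ e : ℝ, (e = 1 ∨ e = -1) ∧ s + e ∈ Icc 0 r := by
    rcases le_total s 1 with h1 | h1
    · exact ⟨1, Or.inl rfl, by linarith [hs.1], by linarith⟩
    · exact ⟨-1, Or.inr rfl, by linarith, by linarith [hs.2]⟩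
  have h1 := h _ _ _ _ (hv.vel C s) (hw.vel C (δ + s)) e he
  rw [C.gd_add (hv.mem C), C.gd_add (hw.mem C), add_assoc] at h1
  rw [C.up_gd (hv.mem C), C.up_gd (hw.mem C)]
  have h2 : Real.exp (-(a * ε (s + e))) ≤ Real.exp a * Real.exp (-(a * ε s)) := by
    rw [← Real.exp_add]
    exact Real.exp_le_exp.2 (by nlinarith [hε s e he, H.a_pos])
  have h3 := (hd _ hse).trans (mul_le_mul_of_nonneg_left h2 hc)
  refine h1.trans ((mul_le_mul_of_nonneg_left (add_le_add (hd s hs) h3) hK.le).trans_eq (by ring))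

end Tw

open Tw

variable (H : Hyp n N a S)
include H

omit C in
/-- exponentially close orbits have close ergodic integrals (Hölder `tau`, `∫ e^{-aθ s} ≤ 1/(aθ)`).
Four versions: closeness decaying from either end, positive and negative times. -/
lemma shadow (hHol : UHolS) : ∃ θ K : ℝ, 0 < θ ∧ 0 < K ∧ ∀ z ∈ US G, ∀ w ∈ US G, ∀ ρ t : ℝ,
    0 ≤ ρ → 0 ≤ t →
    ((∀ s ∈ Icc 0 t, dist (fl G (z, s)) (fl G (w, s)) ≤ ρ * Real.exp (-(a * s))) →
      |St G t z - St G t w| ≤ K * ρ ^ θ) ∧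
    ((∀ s ∈ Icc 0 t, dist (fl G (z, s)) (fl G (w, s)) ≤ ρ * Real.exp (-(a * (t - s)))) →
      |St G t z - St G t w| ≤ K * ρ ^ θ) ∧
    ((∀ s ∈ Icc 0 t, dist (fl G (z, -s)) (fl G (w, -s)) ≤ ρ * Real.exp (-(a * s))) →
      |St G (-t) z - St G (-t) w| ≤ K * ρ ^ θ) := by
  obtain ⟨θ, K, hθ, -, hK, h⟩ := hHol n N a S G H
  have hc : 0 < a * θ := mul_pos H.a_pos hθ
  refine ⟨θ, K * (1 / (a * θ)), hθ, by positivity, fun z hz w hw ρ t hρ ht => ?_⟩
  have hM : 0 ≤ K * ρ ^ θ := by positivity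
  have key : ∀ s e : ℝ, dist (fl G (z, s)) (fl G (w, s)) ≤ ρ * Real.exp (-(a * e)) →
      |tau G (fl G (z, s)) - tau G (fl G (w, s))| ≤ K * ρ ^ θ * Real.exp (-(a * θ * e)) := by
    intro s e hs
    refine (h _ (fl_US hz s) _ (fl_US hw s)).2.trans ?_
    rw [mul_assoc, show -(a * θ * e) = -(a * e) * θ by ring, Real.exp_mul,
      ← Real.mul_rpow hρ (Real.exp_pos _).le]
    exact mul_le_mul_of_nonneg_left (Real.rpow_le_rpow dist_nonneg hs hθ.le) hK.le
  have hf := tau_fl H hHol hz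
  have hg := tau_fl H hHol hw
  rw [mul_right_comm]
  refine ⟨fun hs => ?_, fun hs => ?_, fun hs => ?_⟩
  · exact core (ε := id) hf hg continuous_id ht hM (int_exp hc t) fun s h1 => key s s (hs s h1)
  · refine core (ε := fun s => t - s) hf hg (by fun_prop) ht hM ?_ fun s h1 => key s _ (hs s h1)
    rw [intervalIntegral.integral_comp_sub_left (fun s => Real.exp (-(a * θ * s))) t, sub_self,
      sub_zero]
    exact int_exp hc t
  · have h1 := core (ε := id) (hf.comp continuous_neg) (hg.comp continuous_neg) continuous_id ht hM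
      (int_exp hc t) fun s h1 => key (-s) s (hs s h1)
    simp only [Function.comp_def] at h1
    rw [intervalIntegral.integral_comp_neg (fun s => tau G (fl G (z, s))),
      intervalIntegral.integral_comp_neg (fun s => tau G (fl G (w, s))), neg_zero,
      intervalIntegral.integral_symm, intervalIntegral.integral_symm (0 : ℝ) (-t), neg_sub_neg,
      abs_sub_comm] at h1
    exact h1

omit C in
/-- cocycle property and the trivial bound (`tau` is continuous on the compact `US G`; get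
continuity from `UHolS`) -/
lemma St_basic (hHol : UHolS) : (∀ z ∈ US G, ∀ s t, St G (s + t) z = St G s z + St G t (fl G (z, s))) ∧
    ∃ B : ℝ, 0 < B ∧ ∀ z ∈ US G, ∀ t, |St G t z| ≤ B * |t| := by
  constructor
  · intro z hz s t
    have hf := tau_fl H hHol hz
    simp only [St_def, ← fl_add' G hz.1]
    rw [intervalIntegral.integral_comp_add_left (fun u => tau G (fl G (z, u))) s, add_zero,
      intervalIntegral.integral_add_adjacent_intervals (hf.intervalIntegrable _ _)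
        (hf.intervalIntegrable _ _)]
  · obtain ⟨B, hB⟩ := (isCompact_US G H.cpt).exists_bound_of_continuousOn (tau_cont H hHol)
    refine ⟨max B 1, by positivity, fun z hz t => ?_⟩
    simpa [St_def] using intervalIntegral.norm_integral_le_of_norm_le_const (a := 0) (b := t)
      (f := fun s => tau G (fl G (z, s))) fun s _ => (hB _ (fl_US hz s)).trans (le_max_left B 1)

/-- geodesic segments with close end points stay close.  Use the intermediate geodesic from `x`
to `gd y w t'` (`h2_mono` at `x`, `tail` at the common end point). -/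
lemma seg_close {x y : Euc n} {v w : Euc N} (hv : C.Un x v) (hw : C.Un y w) {t t' ρ : ℝ}
    (ht : 0 ≤ t) (ht' : 0 ≤ t') (h0 : C.dd x y ≤ ρ) (h1 : C.dd (C.gd x v t) (C.gd y w t') ≤ ρ) :
    |t - t'| ≤ 2 * ρ ∧ ∀ s ∈ Icc 0 t, C.dd (C.gd x v s) (C.gd y w s) ≤ 10 * ρ := by
  have ha := H.a_pos
  have tri := C.dd_triangle ha.le
  have hρ : 0 ≤ ρ := (C.dd_nonneg _ _).trans h0
  have h0' : C.dd y x ≤ ρ := by rwa [C.dd_comm]
  have h2 := C.abs_dd_sub_le ha.le x (C.gd x v t) (C.gd y w t')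
  rw [hv.dd_gd_zero C, abs_of_nonneg ht] at h2
  have h3 := abs_le.1 (h2.trans h1)
  have h4 := abs_le.1 (C.tail ha hw x ht' h0' le_rfl (C.dd_nonneg _ _)).1
  have h5 : ∀ s ∈ Icc 0 (C.dd x (C.gd y w t')), C.dd (C.gd x v s) (C.gd y w s) ≤ 5 * ρ := by
    intro s hs
    by_cases hx : x = C.gd y w t'
    · obtain rfl : s = 0 := le_antisymm (hs.2.trans_eq (by rw [← hx, C.dd_self])) hs.1
      rw [C.gd_zero, C.gd_zero]; linarith
    have e1 := C.h2_mono ha hv (C.un_dir hx) hs.1 hs.2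
    have e2 := (C.tail ha hw x ht' h0' hs.1 hs.2).2.1
    have e3 := tri (C.gd x v (C.dd x (C.gd y w t'))) (C.gd x v t) (C.gd y w t')
    have e4 := hw.dd_gd C (s + (t' - C.dd x (C.gd y w t'))) s
    have e5 := tri (C.gd x v s) (C.gd x (C.dir x (C.gd y w t')) s) (C.gd y w s)
    have e6 := tri (C.gd x (C.dir x (C.gd y w t')) s) (C.gd y w (s + (t' - C.dd x (C.gd y w t'))))
      (C.gd y w s)
    have e7 : |s - (s + (t' - C.dd x (C.gd y w t')))| ≤ ρ := abs_le.2 ⟨by linarith, by linarith⟩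
    rw [C.gd_dir] at e1
    rw [hv.dd_gd C] at e3
    linarith [h2.trans h1]
  refine ⟨abs_le.2 ⟨by linarith, by linarith⟩, fun s hs => ?_⟩
  rcases le_total s (C.dd x (C.gd y w t')) with h | h
  · linarith [h5 s ⟨hs.1, h⟩]
  · have e1 := h5 _ ⟨C.dd_nonneg _ _, le_rfl⟩
    set r := C.dd x (C.gd y w t')
    have e2 := tri (C.gd x v s) (C.gd x v r) (C.gd y w s)
    have e3 := tri (C.gd x v r) (C.gd y w r) (C.gd y w s)
    rw [hv.dd_gd C, abs_sub_comm, abs_of_nonneg (sub_nonneg.2 h)] at e2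
    rw [hw.dd_gd C, abs_of_nonneg (sub_nonneg.2 h)] at e3
    linarith [hs.2]

/-- the same in the unit tangent bundle (`up_close` with `e = 1` for `s ≤ 1`, `e = -1` for
`s ≥ 1`) -/
lemma seg_up : ∃ K : ℝ, 0 < K ∧ ∀ x v y w, C.Un x v → C.Un y w → ∀ t t' ρ : ℝ, 2 ≤ t → 0 ≤ t' →
    C.dd x y ≤ ρ → C.dd (C.gd x v t) (C.gd y w t') ≤ ρ →
    ∀ s ∈ Icc 0 t, dist (fl G ((C.pr x, v), s)) (fl G ((C.pr y, w), s)) ≤ K * ρ := by
  obtain ⟨K, hK, h⟩ := up_exp C H
  refine ⟨K * 10, by positivity, fun x v y w hv hw t t' ρ ht ht' h0 h1 s hs => ?_⟩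
  have hρ : 0 ≤ ρ := (C.dd_nonneg _ _).trans h0
  have h2 := h x v y w hv hw (10 * ρ) t 0 (fun _ => 0) (by positivity) ht (fun _ _ _ => by norm_num)
    (fun s hs => by simpa using (C.seg_close H hv hw (by linarith) ht' h0 h1).2 s hs) s hs
  simpa [mul_assoc] using h2

/-- BOWEN PROPERTY.  With `u = dir x Q`, `Q = gd y w t'`, `r = dd x Q`: `(x,v)` and `(x,u)` are
`K ρ e^{-a (t-s)}`-close (`h2_exp`, `up_close`), `(x,u)` and `fl ((y,w), t'-r)` are
`K ρ e^{-a s}`-close (`tail`, `up_close`); `shadow` twice and `St_basic` for the time shifts;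
`sinh (a c ρ) ≤ K ρ` for `ρ ≤ 1`.  For `t ≤ 3` the bound `K` is `St_basic`. -/
lemma bowen (hHol : UHolS) : ∃ θ K : ℝ, 0 < θ ∧ 0 < K ∧ ∀ x v y w, C.Un x v → C.Un y w →
    ∀ t t' ρ : ℝ, 0 ≤ t → 0 ≤ t' → ρ ≤ 1 → C.dd x y ≤ ρ →
    C.dd (C.gd x v t) (C.gd y w t') ≤ ρ →
    |St G t (C.pr x, v) - St G t' (C.pr y, w)| ≤ K ∧
    (3 ≤ t → |St G t (C.pr x, v) - St G t' (C.pr y, w)| ≤ K * ρ ^ θ) := by
  obtain ⟨θ, K, hθ, hK, hsh⟩ := shadow (G := G) H hHol
  obtain ⟨hco, B, hB, hb⟩ := St_basic (G := G) H hHol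
  obtain ⟨K1, hK1, hup⟩ := up_exp C H
  have ha := H.a_pos
  set M := K * (K1 * (2 * Real.exp a)) ^ θ with hM
  have hM0 : 0 < M := by positivity
  refine ⟨min θ 1, 2 * M + 8 * B, by positivity, by positivity,
    fun x v y w hv hw t t' ρ ht ht' hρ1 h0 h1 => ?_⟩
  have hρ : 0 ≤ ρ := (C.dd_nonneg _ _).trans h0
  have hm : 0 ≤ min θ 1 := by positivity
  have long : 3 ≤ t → |St G t (C.pr x, v) - St G t' (C.pr y, w)| ≤ (2 * M + 8 * B) * ρ ^ min θ 1 := by
    intro h3
    have h0' : C.dd y x ≤ ρ := by rwa [C.dd_comm]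
    have h2 := C.abs_dd_sub_le ha.le x (C.gd x v t) (C.gd y w t')
    rw [hv.dd_gd_zero C, abs_of_nonneg ht] at h2
    have h4 := (C.tail ha hw x ht' h0' le_rfl (C.dd_nonneg _ _)).1
    have h5 := fun s hs hs' => (C.tail ha hw x ht' h0' (s := s) hs hs').2.2
    have e3 := C.dd_triangle ha.le (C.gd x v (C.dd x (C.gd y w t'))) (C.gd x v t) (C.gd y w t')
    have e4 := C.gd_dir x (C.gd y w t')
    rw [hv.dd_gd C] at e3
    have hx : x ≠ C.gd y w t' := fun hx => by
      have h6 := abs_le.1 (h2.trans h1)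
      rw [← hx, C.dd_self] at h6
      linarith
    have hu := C.un_dir hx
    generalize C.dir x (C.gd y w t') = u at h5 e4 hu
    generalize hr : C.dd x (C.gd y w t') = r at h2 h4 h5 e3 e4
    have h6 := h2.trans h1
    have hr2 : 2 ≤ r := by linarith [abs_le.1 h6]
    have hs := sinh_le ha hρ hρ1
    have hc : 0 ≤ 2 * Real.exp a * ρ := by positivity
    have fin : ∀ E σ : ℝ, 0 ≤ E → σ ≤ Real.sinh (a * ρ) → 2 / a * E * σ ≤ 2 * Real.exp a * ρ * E := by
      intro E σ hE hσ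
      refine (mul_le_mul_of_nonneg_left (hσ.trans hs) (by positivity)).trans_eq ?_
      field_simp
    have d1 := hup x v x u hv hu _ r 0 (fun s => r - s) hc hr2
      (fun s e he => by rcases he with rfl | rfl <;> linarith) fun s hs => by
        rw [zero_add]
        refine (C.h2_exp ha hv hu hs.1 hs.2).trans (fin _ _ (Real.exp_pos _).le ?_)
        rw [e4]
        exact Real.sinh_le_sinh.2 (by nlinarith)
    have d2 := hup x u y w hu hw _ r (t' - r) (fun s => s) hc hr2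
      (fun s e he => by rcases he with rfl | rfl <;> linarith) fun s hs => by
        rw [add_comm]
        exact (h5 s hs.1 hs.2).trans (fin _ _ (Real.exp_pos _).le le_rfl)
    have hw' := fl_US hw (t' - r)
    have hρ' : 0 ≤ K1 * (2 * Real.exp a * ρ) := by positivity
    have s1 := (hsh _ hv _ hu _ r hρ' (by linarith)).2.1 fun s hs => by simpa using d1 s hs
    have s2 := (hsh _ hu _ hw' _ r hρ' (by linarith)).1 fun s hs => by
      rw [← fl_add' G hw.1]; exact d2 s hs
    have e5 : K * (K1 * (2 * Real.exp a * ρ)) ^ θ = M * ρ ^ θ := by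
      rw [hM, ← mul_assoc K1, Real.mul_rpow (by positivity) hρ, mul_assoc]
    have p1 : ρ ^ θ ≤ ρ ^ min θ 1 := Real.rpow_le_rpow_of_exponent_ge' hρ hρ1 hm (min_le_left _ _)
    have p2 : ρ ≤ ρ ^ min θ 1 := by
      simpa using Real.rpow_le_rpow_of_exponent_ge' hρ hρ1 hm (min_le_right θ 1)
    have c1 := hco _ hv r (t - r)
    have c2 := hco _ hw (t' - r) r
    have b1 := (hb _ (fl_US hv r) (t - r)).trans (mul_le_mul_of_nonneg_left (h6.trans p2) hB.le)
    have b2 := (hb _ hw (t' - r)).trans (mul_le_mul_of_nonneg_left (h4.trans p2) hB.le)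
    rw [add_sub_cancel] at c1
    rw [sub_add_cancel] at c2
    rw [e5] at s1 s2
    have q1 := mul_le_mul_of_nonneg_left p1 hM0.le
    have q2 := mul_nonneg hB.le (hρ.trans p2)
    rw [c1, c2]
    refine abs_le.2 ⟨?_, ?_⟩ <;>
      linarith [abs_le.1 s1, abs_le.1 s2, abs_le.1 b1, abs_le.1 b2]
  refine ⟨?_, long⟩
  rcases le_total 3 t with h3 | h3
  · exact (long h3).trans (mul_le_of_le_one_right (by positivity) (Real.rpow_le_one hρ hρ1 hm))
  · have h4 := abs_le.1 (C.seg_close H hv hw ht ht' h0 h1).1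
    have b1 := abs_le.1 (hb _ hv t)
    have b2 := abs_le.1 (hb _ hw t')
    rw [abs_of_nonneg ht] at b1
    rw [abs_of_nonneg ht'] at b2
    have q1 := mul_le_mul_of_nonneg_left h3 hB.le
    have q2 := mul_le_mul_of_nonneg_left (show t' ≤ 5 by linarith) hB.le
    exact abs_le.2 ⟨by linarith, by linarith⟩

end Crest.Agent.N221.Cov
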