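import Crest.Agent.N221.C.Base
import Crest.Agent.R208.I1
import Crest.Agent.R208.G3

/-!
Row 221, block C: uniform local structure of the cover (all constants independent of the point,
by cocompactness `exists_deck` and smoothness of `lg`, `ex` on compact sets; remember
`‖x - y‖ ≤ dd x y`).
-/

set_option autoImplicit false
set_option linter.unusedSectionVars false
set_option linter.unusedVariables false

open MeasureTheory Set Filter Topology
open scoped ContDiff RealInnerProductSpace ENNReal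
open Crest.GeometryTopology.Submanifold
open Crest.Agent.R241.DDefs Crest.Agent.R241.D2
open Crest.Agent.R208.J Crest.Agent.R208.L

noncomputable section

namespace Crest.Agent.N221.Cov

variable {n N : ℕ} {a : ℝ} {S : Set (Euc N)} {G : Geo n N (-(a ^ 2)) S} (C : Cov G)

namespace Loc

lemma lip_ball {E F : Type*} [NormedAddCommGroup E] [NormedSpace ℝ E] [ProperSpace E]
    [NormedAddCommGroup F] [NormedSpace ℝ F] {f : E → F} (hf : ContDiff ℝ ∞ f) (R : ℝ) :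
    ∃ K : ℝ, 0 < K ∧ ∀ x y, ‖x‖ ≤ R → ‖y‖ ≤ R → ‖f x - f y‖ ≤ K * ‖x - y‖ := by
  obtain ⟨K, hK⟩ := (hf.contDiffOn (s := Metric.closedBall 0 R)).exists_lipschitzOnWith (by simp)
    (convex_closedBall 0 R) (isCompact_closedBall 0 R)
  refine ⟨K + 1, by positivity, fun x y hx hy => ?_⟩
  have := hK.norm_sub_le (mem_closedBall_zero_iff.2 hx) (mem_closedBall_zero_iff.2 hy)
  nlinarith [norm_nonneg (x - y)]

lemma norm_pair_le {E F : Type*} [NormedAddCommGroup E] [NormedAddCommGroup F] (x x' : E)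
    (y y' : F) : ‖(x, y) - (x', y')‖ ≤ ‖x - x'‖ + ‖y - y'‖ :=
  max_le (le_add_of_nonneg_right (norm_nonneg _)) (le_add_of_nonneg_left (norm_nonneg _))

lemma near (H : Hyp n N a S) {ρ : ℝ} (hρ : 0 < ρ) (x0 : Euc n) :
    ∀ᶠ z : ℝ × Euc n in 𝓝 (0, x0), ∀ q ∈ S, ‖C.pr z.2 - q‖ ≤ z.1 →
      ∃ y, C.pr y = q ∧ C.dd z.2 y ≤ ρ := by
  obtain ⟨R, h1, h2, -, h3⟩ := R208.local_inverse H.sub (Φ := C.pr) (v₀ := x0)
    C.pr_smooth.contDiffAt (.of_forall C.pr_mem) (by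
      refine (injective_iff_map_eq_zero _).2 fun w hw => norm_le_zero_iff.1 ?_
      simpa [hw] using C.pr_exp x0 w)
  have h4 : ContinuousAt (fun z : Euc n × Euc N => C.dd z.1 (R z.2)) (x0, C.pr x0) :=
    C.continuous_dd.continuousAt.comp (f := fun z : Euc n × Euc N => (z.1, R z.2))
      (continuousAt_fst.prodMk (ContinuousAt.comp (g := R) h1.continuousAt continuousAt_snd))
  have h5 : ∀ᶠ z : Euc n × Euc N in 𝓝 (x0, C.pr x0), C.dd z.1 (R z.2) ≤ ρ :=
    h4.eventually (ge_mem_nhds (by simp only [h2, C.dd_self]; exact hρ))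
  have h6 : ∀ᶠ z : Euc n × Euc N in 𝓝 (x0, C.pr x0), z.2 ∈ S → C.pr (R z.2) = z.2 :=
    (continuousAt_snd (p := (x0, C.pr x0))).eventually (eventually_nhdsWithin_iff.1 h3)
  obtain ⟨δ, hδ, h7⟩ := Metric.eventually_nhds_iff.1 (h5.and h6)
  have c1 : ∀ᶠ z : ℝ × Euc n in 𝓝 (0, x0), z.1 < δ / 2 :=
    (continuousAt_fst (p := ((0 : ℝ), x0))).eventually (gt_mem_nhds (half_pos hδ))
  have c2 : ∀ᶠ z : ℝ × Euc n in 𝓝 (0, x0), dist z.2 x0 < δ :=
    (continuousAt_snd (p := ((0 : ℝ), x0))).eventually (Metric.ball_mem_nhds x0 hδ)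
  have c3 : ∀ᶠ z : ℝ × Euc n in 𝓝 (0, x0), dist (C.pr z.2) (C.pr x0) < δ / 2 :=
    ((C.pr_smooth.continuous.comp continuous_snd).continuousAt (x := ((0 : ℝ), x0))).eventually
      (Metric.ball_mem_nhds (C.pr x0) (half_pos hδ))
  filter_upwards [c1, c2, c3] with z c1 c2 c3 q hq hz
  have h8 := h7 (y := (z.2, q)) (max_lt c2 (by
    have := dist_triangle_left q (C.pr x0) (C.pr z.2)
    rw [← dist_eq_norm] at hz
    change dist q (C.pr x0) < δ
    linarith))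
  exact ⟨R q, h8.2 hq, h8.1⟩

end Loc

open Loc

variable (H : Hyp n N a S)
include H

/-- (i) `R208.I.LocC.norm_sub_le` with `u = 0`, `u' = lg x y`.  (ii) for `x` in the compact ball
`‖x‖ ≤ D`: `R208.local_inverse` of `pr` at `x₀`, continuity of `dd` at `(x₀,x₀)` and (i), then a
finite subcover / Lebesgue number; general `x` by a deck map. -/
lemma exists_r0 : ∃ r0 : ℝ, 0 < r0 ∧
    (∀ x y, C.dd x y ≤ r0 → C.dd x y ≤ 2 * ‖C.pr x - C.pr y‖) ∧
    (∀ x, ∀ q ∈ S, ‖C.pr x - q‖ ≤ r0 → ∃ y, C.pr y = q ∧ C.dd x y ≤ 2 * ‖C.pr x - q‖) := by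
  obtain ⟨ρ, K, h⟩ := R208.I.exists_LocC G H.cpt
  have h1 : ∀ x y, C.dd x y ≤ ρ → C.dd x y ≤ 2 * ‖C.pr x - C.pr y‖ := fun x y hxy => by
    have := h.norm_sub_le (C.pr_mem x) (G.T _).zero_mem (C.lg_mem x y)
      (by simpa using h.ρ_pos.le) hxy
    rwa [sub_zero, ← C.pr_ex x _ (C.lg_mem x y), ← C.pr_ex x _ (G.T _).zero_mem, C.ex_lg,
      C.ex_zero, norm_sub_rev] at this
  obtain ⟨D, -, hD⟩ := C.exists_deck
  obtain ⟨r, h2, hr⟩ := ((((isCompact_closedBall (0 : Euc n) D).eventually_forall_of_forall_eventually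
    (P := fun (r : ℝ) x => ∀ q ∈ S, ‖C.pr x - q‖ ≤ r → ∃ y, C.pr y = q ∧ C.dd x y ≤ ρ)
    fun x _ => near C H h.ρ_pos x).filter_mono nhdsWithin_le_nhds).and
      (self_mem_nhdsWithin (s := Ioi (0 : ℝ)))).exists
  refine ⟨min r ρ, lt_min hr h.ρ_pos, fun x y hxy => h1 x y (hxy.trans (min_le_right _ _)),
    fun x q hq hx => ?_⟩
  obtain ⟨g, hg, hgx⟩ := hD x
  obtain ⟨y', h3, h4⟩ := h2 (g x) (mem_closedBall_zero_iff.2 hgx) q hq
    (by rw [hg.pr_eq]; exact hx.trans (min_le_left _ _))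
  obtain ⟨y, rfl⟩ := hg.bij.2 y'
  rw [hg.pr_eq] at h3
  rw [Deck.dd_eq C hg] at h4
  exact ⟨y, h3, h3 ▸ h1 x y h4⟩

/-- lifts of close curves stay close (the set of `u` with `dd ≤ 2ε` is open and closed in
`[s,t]` because `2ε < r0`) -/
lemma lift_close : ∃ ε₀ : ℝ, 0 < ε₀ ∧ ∀ ε, ε ≤ ε₀ → ∀ (c c' : ℝ → Euc n) (s t : ℝ),
    ContinuousOn c (Icc s t) → ContinuousOn c' (Icc s t) → C.dd (c s) (c' s) ≤ 2 * ε →
    (∀ u ∈ Icc s t, ‖C.pr (c u) - C.pr (c' u)‖ ≤ ε) →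
    ∀ u ∈ Icc s t, C.dd (c u) (c' u) ≤ 2 * ε := by
  obtain ⟨r, hr, h, -⟩ := C.exists_r0 H
  refine ⟨r / 4, by positivity, fun ε hε c c' s t hc hc' h0 h1 u hu => ?_⟩
  have h2 : ∀ u ∈ Icc s t, C.dd (c u) (c' u) ≤ r → C.dd (c u) (c' u) ≤ 2 * ε := fun u hu h3 => by
    linarith [h _ _ h3, h1 u hu]
  rcases le_total (C.dd (c u) (c' u)) r with h3 | h3
  · exact h2 u hu h3
  · have hf : ContinuousOn (fun u => C.dd (c u) (c' u)) (Icc s t) :=
      C.continuous_dd.comp_continuousOn (f := fun u => (c u, c' u)) (hc.prodMk hc')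
    obtain ⟨u', hu', h4⟩ := isPreconnected_Icc.intermediate_value
      (left_mem_Icc.2 (hu.1.trans hu.2)) hu hf (show r ∈ Icc _ _ from ⟨by linarith, h3⟩)
    have h5 := h2 u' hu' h4.le
    simp only at h4
    linarith

/-- `lg` is Lipschitz on bounded configurations -/
lemma lg_lip (R : ℝ) : ∃ K : ℝ, 0 < K ∧ ∀ x y x' y', C.dd x y ≤ R → C.dd x x' ≤ R →
    C.dd y y' ≤ R → ‖C.lg x y - C.lg x' y'‖ ≤ K * (C.dd x x' + C.dd y y') := by
  have ha := H.a_pos.le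
  obtain ⟨D, hD0, hD⟩ := C.exists_deck
  obtain ⟨K, hK, h⟩ := lip_ball C.lg_smooth (D + 2 * R)
  refine ⟨K, hK, fun x y x' y' h1 h2 h3 => ?_⟩
  obtain ⟨g, hg, hx⟩ := hD x
  have hR := (C.dd_nonneg x y).trans h1
  rw [← Deck.dd_eq C hg] at h1 h2 h3
  have a1 := C.norm_le_of_dd ha (g x) (g y)
  have a2 := C.norm_le_of_dd ha (g x) (g x')
  have a3 := C.norm_le_of_dd ha (g y) (g y')
  rw [← hg.lg_eq x y, ← hg.lg_eq x' y', ← Deck.dd_eq C hg x x', ← Deck.dd_eq C hg y y']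
  refine (h (g x, g y) (g x', g y') (max_le (by linarith) (by linarith))
    (max_le (by linarith) (by linarith))).trans (mul_le_mul_of_nonneg_left
      ((norm_pair_le _ _ _ _).trans ?_) hK.le)
  exact add_le_add (C.norm_sub_le_dd ha _ _) (C.norm_sub_le_dd ha _ _)

/-- closeness in the unit tangent bundle from closeness of two positions (`v = ± lg x (gd x v ±1)`;
if one of the distances is `≥ 1` use `‖v - w‖ ≤ 2` and `pr_sub_le`) -/
lemma up_close : ∃ K : ℝ, 0 < K ∧ ∀ x v y w, C.Un x v → C.Un y w → ∀ e : ℝ, (e = 1 ∨ e = -1) →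
    dist (C.pr x, v) (C.pr y, w) ≤ K * (C.dd x y + C.dd (C.gd x v e) (C.gd y w e)) := by
  obtain ⟨K, hK, h⟩ := C.lg_lip H 1
  refine ⟨K + 2, by positivity, fun x v y w hv hw e he => ?_⟩
  have he1 : |e| = 1 := by rcases he with rfl | rfl <;> simp
  have d1 := C.dd_nonneg x y
  have d2 := C.dd_nonneg (C.gd x v e) (C.gd y w e)
  have h1 := C.pr_sub_le x y
  have h2 : ‖v - w‖ ≤ 2 := by linarith [norm_sub_le v w, Un.norm C hv, Un.norm C hw]
  have h3 := mul_nonneg hK.le (add_nonneg d1 d2)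
  rw [Prod.dist_eq, dist_eq_norm, dist_eq_norm]
  refine max_le (by simp only; linarith) ?_
  simp only
  by_cases h4 : C.dd x y ≤ 1 ∧ C.dd (C.gd x v e) (C.gd y w e) ≤ 1
  · have h5 := h x (C.gd x v e) y (C.gd y w e) ((Un.dd_gd_zero C hv e).trans he1).le h4.1 h4.2
    rw [gd, gd, C.lg_ex x _ ((G.T _).smul_mem e (Un.mem C hv)),
      C.lg_ex y _ ((G.T _).smul_mem e (Un.mem C hw)), ← smul_sub, norm_smul, Real.norm_eq_abs, he1,
      one_mul] at h5
    rw [gd, gd] at d2 ⊢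
    linarith
  · rcases not_and_or.1 h4 with h5 | h5 <;> linarith [not_le.1 h5]

/-- geodesics depend Lipschitz continuously on the initial data, for bounded times -/
lemma gd_close (R : ℝ) : ∃ K : ℝ, 0 < K ∧ ∀ x v y w, C.Un x v → C.Un y w → C.dd x y ≤ R →
    ∀ t, |t| ≤ R → C.dd (C.gd x v t) (C.gd y w t) ≤ K * (C.dd x y + ‖v - w‖) := by
  have ha := H.a_pos.le
  obtain ⟨D, hD0, hD⟩ := C.exists_deck
  obtain ⟨K1, hK1, h1⟩ := lip_ball C.ex_smooth (D + R)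
  obtain ⟨K2, hK2, h2⟩ := C.dd_le_on_ball ha (D + 2 * R)
  refine ⟨K2 * (K1 * (1 + |R|)), by positivity, fun x v y w hv hw hxy t ht => ?_⟩
  obtain ⟨g, hg, hx⟩ := hD x
  have hR := (C.dd_nonneg x y).trans hxy
  have hv' := (Deck.un C hg).2 hv
  have hw' := (Deck.un C hg).2 hw
  rw [← Deck.dd_eq C hg] at hxy
  have a1 := C.norm_le_of_dd ha (g x) (g y)
  have a2 := C.norm_le_of_dd ha (g x) (C.gd (g x) v t)
  have a3 := C.norm_le_of_dd ha (g y) (C.gd (g y) w t)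
  rw [Un.dd_gd_zero C hv'] at a2
  rw [Un.dd_gd_zero C hw'] at a3
  have b : ∀ u : Euc N, ‖u‖ = 1 → ‖t • u‖ ≤ D + R := fun u hu => by
    rw [norm_smul, hu, mul_one, Real.norm_eq_abs]; linarith
  have h3 := (h1 (g x, t • v) (g y, t • w) (max_le (by linarith) (b v (Un.norm C hv)))
    (max_le (by linarith) (b w (Un.norm C hw)))).trans
    (mul_le_mul_of_nonneg_left (norm_pair_le _ _ _ _) hK1.le)
  rw [← smul_sub, norm_smul, Real.norm_eq_abs] at h3
  rw [← Deck.dd_eq C hg (C.gd x v t), ← Deck.gd_eq C hg (Un.mem C hv),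
    ← Deck.gd_eq C hg (Un.mem C hw), ← Deck.dd_eq C hg x y, mul_assoc, mul_assoc]
  refine (h2 _ _ (by linarith) (by linarith)).trans (mul_le_mul_of_nonneg_left
    (h3.trans (mul_le_mul_of_nonneg_left ?_ hK1.le)) hK2.le)
  have h4 := C.norm_sub_le_dd ha (g x) (g y)
  have h5 := mul_le_mul_of_nonneg_right ht (norm_nonneg (v - w))
  rw [abs_of_nonneg hR]
  nlinarith [norm_nonneg (v - w), mul_nonneg hR (C.dd_nonneg (g x) (g y))]

/-- the deck group acts properly discontinuously -/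
lemma finite_fibre (x y : Euc n) (R : ℝ) : {z | C.pr z = C.pr y ∧ C.dd x z ≤ R}.Finite := by
  obtain ⟨r, hr, h, -⟩ := C.exists_r0 H
  have hc : IsCompact {z | C.pr z = C.pr y ∧ C.dd x z ≤ R} :=
    (C.isCompact_dd H.a_pos.le x R).inter_left (isClosed_eq C.pr_smooth.continuous continuous_const)
  obtain ⟨t, h1, h2⟩ := hc.elim_nhds_subcover (fun z => {z' | C.dd z z' ≤ r}) fun z _ =>
    (C.continuous_dd.comp (Continuous.prodMk_right z)).continuousAt.eventually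
      (ge_mem_nhds (by simp only [Function.comp, C.dd_self]; exact hr))
  refine t.finite_toSet.subset fun z hz => ?_
  obtain ⟨z', h3, h4⟩ := mem_iUnion₂.1 (h2 hz)
  have h5 := h z' z h4
  rw [(h1 z' h3).1, hz.1, sub_self, norm_zero, mul_zero] at h5
  exact C.eq_of_dd (le_antisymm h5 (C.dd_nonneg _ _)) ▸ h3

end Crest.Agent.N221.Cov
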