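import Crest.Agent.N221.C.Defs
import Crest.Agent.R241.D3c

/-!
Row 221, block C (helper85): the cover as a metric space; geodesics, lifts, deck maps.
-/

set_option autoImplicit false
set_option linter.unusedSectionVars false
set_option linter.unusedVariables false

open MeasureTheory Set Filter Topology
open scoped ContDiff RealInnerProductSpace ENNReal
open Crest.GeometryTopology.Submanifold
open Crest.Agent.R241.DDefs Crest.Agent.R241.D2
open Crest.Agent.R208.J Crest.Agent.R208.L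

noncomputable section

namespace Crest.Agent.N221.Cov

variable {n N : ℕ} {a : ℝ} {S : Set (Euc N)} {G : Geo n N (-(a ^ 2)) S} (C : Cov G)

/-! ### the covering map -/

lemma diff_pr : Differentiable ℝ C.pr := C.pr_smooth.differentiable (by simp)

lemma fderiv_pr_mem (x w : Euc n) : fderiv ℝ C.pr x w ∈ G.T (C.pr x) := by
  have h1 : HasDerivAt (fun t : ℝ => x + t • w) w 0 := by
    simpa using ((hasDerivAt_id (0 : ℝ)).smul_const w).const_add x
  have h2 : HasFDerivAt C.pr (fderiv ℝ C.pr x) (x + (0 : ℝ) • w) := by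
    simpa using (C.diff_pr x).hasFDerivAt
  have h3 := G.deriv_mem (fun t : ℝ => C.pr (x + t • w)) _ 0
    (Eventually.of_forall fun t => C.pr_mem _) (h2.comp_hasDerivAt (0 : ℝ) h1)
  simpa using h3

lemma fderiv_pr_inj (x : Euc n) : Function.Injective (fderiv ℝ C.pr x) := by
  intro u w h
  have h1 := C.pr_exp x (u - w)
  rw [map_sub, h, sub_self, norm_zero] at h1
  exact sub_eq_zero.1 (norm_le_zero_iff.1 h1)

lemma fderiv_pr_surj (x : Euc n) {v : Euc N} (hv : v ∈ G.T (C.pr x)) :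
    ∃ w, fderiv ℝ C.pr x w = v := by
  have h1 : LinearMap.range (fderiv ℝ C.pr x).toLinearMap = G.T (C.pr x) := by
    apply Submodule.eq_of_le_of_finrank_eq
    · rintro _ ⟨w, rfl⟩
      exact C.fderiv_pr_mem x w
    · rw [G.finrank_T _ (C.pr_mem x), LinearMap.finrank_range_of_inj (C.fderiv_pr_inj x)]
      simp
  rw [← h1] at hv
  exact hv

lemma locInj : IsLocallyInjective C.pr := by
  intro x
  obtain ⟨A, hA⟩ := LinearMap.exists_leftInverse_of_injective (fderiv ℝ C.pr x).toLinearMap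
    (LinearMap.ker_eq_bot.2 (C.fderiv_pr_inj x))
  let A' : Euc N →L[ℝ] Euc n := LinearMap.toContinuousLinearMap A
  have h1 : HasStrictFDerivAt C.pr (fderiv ℝ C.pr x) x :=
    C.pr_smooth.contDiffAt.hasStrictFDerivAt (by simp)
  have h2 : HasStrictFDerivAt (A' ∘ C.pr)
      (ContinuousLinearEquiv.refl ℝ (Euc n) : Euc n →L[ℝ] Euc n) x := by
    have h3 := A'.hasStrictFDerivAt.comp x h1
    have h4 : A'.comp (fderiv ℝ C.pr x) =
        (ContinuousLinearEquiv.refl ℝ (Euc n) : Euc n →L[ℝ] Euc n) := by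
      ext1 w
      exact LinearMap.congr_fun hA w
    rwa [h4] at h3
  refine ⟨(h2.toOpenPartialHomeomorph _).source, (h2.toOpenPartialHomeomorph _).open_source,
    h2.mem_toOpenPartialHomeomorph_source, fun u hu w hw h => ?_⟩
  exact (h2.toOpenPartialHomeomorph _).injOn hu hw (by
    show A' (C.pr u) = A' (C.pr w)
    rw [h])

/-- uniqueness of lifts -/
lemma lift_unique {A : Type*} [TopologicalSpace A] {s : Set A} (hs : IsPreconnected s)
    {c c' : A → Euc n} (hc : ContinuousOn c s) (hc' : ContinuousOn c' s)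
    (h : ∀ t ∈ s, C.pr (c t) = C.pr (c' t)) {t₀ : A} (ht₀ : t₀ ∈ s) (h0 : c t₀ = c' t₀) :
    EqOn c c' s :=
  (T2Space.isSeparatedMap C.pr).eqOn_of_comp_eqOn C.locInj hs hc hc' h ht₀ h0

/-! ### geodesics -/

lemma Un.mem {x : Euc n} {v : Euc N} (h : C.Un x v) : v ∈ G.T (C.pr x) := h.1.2
lemma Un.norm {x : Euc n} {v : Euc N} (h : C.Un x v) : ‖v‖ = 1 := h.2
lemma Un.ts {x : Euc n} {v : Euc N} (h : C.Un x v) : (C.pr x, v) ∈ TS G := h.1
lemma Un.neg {x : Euc n} {v : Euc N} (h : C.Un x v) : C.Un x (-v) :=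
  ⟨⟨h.1.1, (G.T _).neg_mem h.1.2⟩, by simpa using h.2⟩

lemma gd_zero (x : Euc n) (v : Euc N) : C.gd x v 0 = x := by
  rw [gd, zero_smul, C.ex_zero]
lemma vel_zero (x : Euc n) (v : Euc N) : C.vel x v 0 = v := by
  rw [vel, fl_zero]

lemma contDiff_gd : ContDiff ℝ ∞ (fun z : Euc n × Euc N × ℝ => C.gd z.1 z.2.1 z.2.2) :=
  C.ex_smooth.comp (f := fun z : Euc n × Euc N × ℝ => (z.1, z.2.2 • z.2.1)) (by fun_prop)
lemma contDiff_gd_t (x : Euc n) (v : Euc N) : ContDiff ℝ ∞ (C.gd x v) :=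
  C.contDiff_gd.comp (f := fun t : ℝ => (x, v, t)) (by fun_prop)

lemma continuous_gd : Continuous (fun z : Euc n × Euc N × ℝ => C.gd z.1 z.2.1 z.2.2) :=
  C.contDiff_gd.continuous

lemma contDiff_lg (x : Euc n) : ContDiff ℝ ∞ (C.lg x) :=
  C.lg_smooth.comp (f := fun y : Euc n => (x, y)) (by fun_prop)

lemma contDiff_ex (x : Euc n) : ContDiff ℝ ∞ (C.ex x) :=
  C.ex_smooth.comp (f := fun y : Euc N => (x, y)) (by fun_prop)

variable {x y z : Euc n} {v w : Euc N}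

lemma pr_gd (hv : v ∈ G.T (C.pr x)) (t : ℝ) :
    C.pr (C.gd x v t) = (fl G ((C.pr x, v), t)).1 := by
  rw [gd, C.pr_ex x _ ((G.T _).smul_mem t hv), Exp_smul G (C.pr_mem x) hv]

lemma up_gd (hv : v ∈ G.T (C.pr x)) (t : ℝ) :
    fl G ((C.pr x, v), t) = (C.pr (C.gd x v t), C.vel x v t) :=
  Prod.ext (C.pr_gd hv t).symm rfl

lemma vel_mem (hv : v ∈ G.T (C.pr x)) (t : ℝ) : C.vel x v t ∈ G.T (C.pr (C.gd x v t)) := by
  rw [C.pr_gd hv]
  exact (fl_mem G (q := (C.pr x, v)) ⟨C.pr_mem x, hv⟩ t).2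
lemma norm_vel (hv : v ∈ G.T (C.pr x)) (t : ℝ) : ‖C.vel x v t‖ = ‖v‖ :=
  norm_fl G (q := (C.pr x, v)) ⟨C.pr_mem x, hv⟩ t
lemma Un.vel (h : C.Un x v) (t : ℝ) : C.Un (C.gd x v t) (C.vel x v t) :=
  ⟨⟨C.pr_mem _, C.vel_mem h.1.2 t⟩, (C.norm_vel h.1.2 t).trans h.2⟩

/-- the velocity is the derivative downstairs -/
lemma hasDerivAt_pr_gd (hv : v ∈ G.T (C.pr x)) (t : ℝ) :
    HasDerivAt (fun t => C.pr (C.gd x v t)) (C.vel x v t) t := by
  simp only [C.pr_gd hv]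
  exact hda_fst (hasDerivAt_fl G (complete G (q := (C.pr x, v)) ⟨C.pr_mem x, hv⟩ t))

lemma hasDerivAt_gd (x : Euc n) (v : Euc N) (t : ℝ) :
    HasDerivAt (C.gd x v) (deriv (C.gd x v) t) t :=
  ((C.contDiff_gd_t x v).differentiable (by simp) t).hasDerivAt

lemma fderiv_pr_deriv_gd (hv : v ∈ G.T (C.pr x)) (t : ℝ) :
    fderiv ℝ C.pr (C.gd x v t) (deriv (C.gd x v) t) = C.vel x v t :=
  ((C.diff_pr _).hasFDerivAt.comp_hasDerivAt t (C.hasDerivAt_gd x v t)).unique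
    (C.hasDerivAt_pr_gd hv t)

lemma gd_add (hv : v ∈ G.T (C.pr x)) (s t : ℝ) :
    C.gd (C.gd x v s) (C.vel x v s) t = C.gd x v (s + t) := by
  refine C.lift_unique (s := univ) isPreconnected_univ (c := C.gd (C.gd x v s) (C.vel x v s))
    (c' := fun t => C.gd x v (s + t)) (C.contDiff_gd_t _ _).continuous.continuousOn
    ((C.contDiff_gd_t _ _).continuous.comp (by fun_prop)).continuousOn (fun t _ => ?_)
    (mem_univ 0) (by simp [gd_zero]) (mem_univ t)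
  rw [C.pr_gd (C.vel_mem hv s), C.pr_gd hv (s + t), ← C.up_gd hv,
    fl_add' G (q := (C.pr x, v)) ⟨C.pr_mem x, hv⟩]

lemma vel_add (hv : v ∈ G.T (C.pr x)) (s t : ℝ) :
    C.vel (C.gd x v s) (C.vel x v s) t = C.vel x v (s + t) := by
  rw [vel, ← C.up_gd hv, vel, fl_add' G (q := (C.pr x, v)) ⟨C.pr_mem x, hv⟩]

lemma gd_neg (x : Euc n) (v : Euc N) (t : ℝ) : C.gd x (-v) t = C.gd x v (-t) := by
  rw [gd, gd, smul_neg, neg_smul]

lemma vel_neg (hv : v ∈ G.T (C.pr x)) (t : ℝ) : C.vel x (-v) t = -C.vel x v (-t) := by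
  have h := (fl_rev G (complete G (q := (C.pr x, v)) ⟨C.pr_mem x, hv⟩ (-t))).2
  rw [neg_neg] at h
  exact congrArg Prod.snd h

lemma lg_gd (hv : v ∈ G.T (C.pr x)) (s t : ℝ) :
    C.lg (C.gd x v s) (C.gd x v t) = (t - s) • C.vel x v s := by
  have h := C.gd_add hv s (t - s)
  rw [add_sub_cancel] at h
  rw [← h]
  exact C.lg_ex _ _ ((G.T _).smul_mem _ (C.vel_mem hv s))

lemma dd_gd (hv : v ∈ G.T (C.pr x)) (s t : ℝ) :
    C.dd (C.gd x v s) (C.gd x v t) = |t - s| * ‖v‖ := by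
  rw [dd, C.lg_gd hv, norm_smul, C.norm_vel hv, Real.norm_eq_abs]

lemma Un.dd_gd (h : C.Un x v) (s t : ℝ) : C.dd (C.gd x v s) (C.gd x v t) = |t - s| := by
  rw [C.dd_gd h.1.2, show ‖v‖ = 1 from h.2, mul_one]
lemma Un.dd_gd_zero (h : C.Un x v) (t : ℝ) : C.dd x (C.gd x v t) = |t| := by
  have h1 := Un.dd_gd C h 0 t
  rwa [gd_zero, sub_zero] at h1

/-! ### logarithm, direction -/

lemma lg_self (x : Euc n) : C.lg x x = 0 := by
  have h := C.lg_ex x 0 (G.T _).zero_mem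
  rwa [C.ex_zero] at h
lemma dd_self (x : Euc n) : C.dd x x = 0 := by rw [dd, lg_self, norm_zero]
lemma dd_nonneg (x y : Euc n) : 0 ≤ C.dd x y := norm_nonneg _
lemma eq_of_dd (h : C.dd x y = 0) : x = y := by
  have h1 := C.ex_lg x y
  rwa [norm_eq_zero.1 h, C.ex_zero] at h1
lemma dd_pos (h : x ≠ y) : 0 < C.dd x y :=
  lt_of_le_of_ne (C.dd_nonneg x y) fun h1 => h (C.eq_of_dd h1.symm)
lemma lg_eq_dir (x y : Euc n) : C.lg x y = C.dd x y • C.dir x y := by
  rw [dd, dir, smul_smul]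
  by_cases h : C.lg x y = 0
  · simp [h]
  · rw [mul_inv_cancel₀ (norm_ne_zero_iff.2 h), one_smul]
lemma dir_mem (x y : Euc n) : C.dir x y ∈ G.T (C.pr x) :=
  (G.T _).smul_mem _ (C.lg_mem x y)
lemma dir_self (x : Euc n) : C.dir x x = 0 := by rw [dir, lg_self, smul_zero]
lemma norm_dir (h : x ≠ y) : ‖C.dir x y‖ = 1 := by
  rw [dir, norm_smul, norm_inv, norm_norm]
  exact inv_mul_cancel₀ (C.dd_pos h).ne'
lemma norm_dir_le (x y : Euc n) : ‖C.dir x y‖ ≤ 1 := by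
  by_cases h : x = y
  · simp [h, dir_self]
  · exact (C.norm_dir h).le
lemma un_dir (h : x ≠ y) : C.Un x (C.dir x y) :=
  ⟨⟨C.pr_mem x, C.dir_mem x y⟩, C.norm_dir h⟩
lemma gd_dir (x y : Euc n) : C.gd x (C.dir x y) (C.dd x y) = y := by
  rw [gd, ← lg_eq_dir, C.ex_lg]
lemma Un.dir_gd (h : C.Un x v) {s t : ℝ} (hst : s < t) :
    C.dir (C.gd x v s) (C.gd x v t) = C.vel x v s := by
  have h1 : ‖C.lg (C.gd x v s) (C.gd x v t)‖ = t - s := by
    rw [← abs_of_pos (sub_pos.2 hst)]; exact Un.dd_gd C h s t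
  rw [dir, h1, C.lg_gd h.1.2, smul_smul, inv_mul_cancel₀ (sub_pos.2 hst).ne', one_smul]
lemma Un.dir_gd' (h : C.Un x v) {s t : ℝ} (hst : t < s) :
    C.dir (C.gd x v s) (C.gd x v t) = -C.vel x v s := by
  have h1 : ‖C.lg (C.gd x v s) (C.gd x v t)‖ = -(t - s) := by
    rw [← abs_of_neg (sub_neg.2 hst)]; exact Un.dd_gd C h s t
  have h2 : t - s ≠ 0 := (sub_neg.2 hst).ne
  rw [dir, h1, C.lg_gd h.1.2, smul_smul, inv_neg, neg_mul, inv_mul_cancel₀ h2, neg_one_smul]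
lemma Un.dir_gd_zero (h : C.Un x v) {t : ℝ} (ht : 0 < t) : C.dir x (C.gd x v t) = v := by
  have h1 := Un.dir_gd C h ht
  rwa [gd_zero, vel_zero] at h1
lemma vel_dir (x y : Euc n) : C.vel x (C.dir x y) (C.dd x y) = -C.dir y x := by
  by_cases h : x = y
  · subst h
    simp [dd_self, vel_zero, dir_self]
  · have h1 := Un.dir_gd' C (C.un_dir h) (C.dd_pos h)
    rw [gd_dir, gd_zero] at h1
    rw [h1, neg_neg]
lemma dd_comm (x y : Euc n) : C.dd x y = C.dd y x := by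
  by_cases h : x = y
  · rw [h]
  · have h1 := Un.dd_gd C (C.un_dir h) (C.dd x y) 0
    rw [gd_dir, gd_zero, zero_sub, abs_neg, abs_of_nonneg (C.dd_nonneg x y)] at h1
    exact h1.symm
/-- the geodesic from `y` back to `x` -/
lemma gd_dir_rev (x y : Euc n) (t : ℝ) :
    C.gd y (C.dir y x) t = C.gd x (C.dir x y) (C.dd x y - t) := by
  have h := C.gd_add (C.dir_mem x y) (C.dd x y) (-t)
  rw [gd_dir, vel_dir, gd_neg, neg_neg] at h
  rw [h, sub_eq_add_neg]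

lemma continuous_dd : Continuous fun z : Euc n × Euc n => C.dd z.1 z.2 :=
  C.lg_smooth.continuous.norm
lemma continuous_dd_right (x : Euc n) : Continuous fun y => C.dd x y :=
  (C.contDiff_lg x).continuous.norm
lemma cont_dd {A : Type*} [TopologicalSpace A] {f g : A → Euc n} (hf : Continuous f)
    (hg : Continuous g) : Continuous fun t => C.dd (f t) (g t) :=
  Continuous.comp (g := fun z : Euc n × Euc n => C.dd z.1 z.2) (f := fun t => (f t, g t))
    C.continuous_dd (hf.prodMk hg)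
lemma contDiffAt_dd (h : x ≠ y) : ContDiffAt ℝ ∞ (fun z : Euc n × Euc n => C.dd z.1 z.2) (x, y) :=
  C.lg_smooth.contDiffAt.norm ℝ (norm_ne_zero_iff.1 (C.dd_pos h).ne')
lemma contDiffAt_dir (h : x ≠ y) :
    ContDiffAt ℝ ∞ (fun z : Euc n × Euc n => C.dir z.1 z.2) (x, y) :=
  ((C.contDiffAt_dd h).inv (C.dd_pos h).ne').smul C.lg_smooth.contDiffAt

/-! ### metric -/

lemma pr_sub_le (x y : Euc n) : ‖C.pr x - C.pr y‖ ≤ C.dd x y := by
  have h := (convex_univ (𝕜 := ℝ) (E := ℝ)).norm_image_sub_le_of_norm_hasDerivWithin_le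
    (f := fun t => C.pr (C.gd x (C.lg x y) t)) (f' := C.vel x (C.lg x y)) (C := C.dd x y)
    (fun t _ => (C.hasDerivAt_pr_gd (C.lg_mem x y) t).hasDerivWithinAt)
    (fun t _ => (C.norm_vel (C.lg_mem x y) t).le) (mem_univ 1) (mem_univ 0)
  simpa [gd, C.ex_lg, C.ex_zero] using h

lemma Exp_lg (x y : Euc n) : Exp G (C.pr x) (C.lg x y) = C.pr y := by
  rw [← C.pr_ex x _ (C.lg_mem x y), C.ex_lg]

/-- the differential of `lg x` inverts `dExp` -/
lemma fderiv_Exp_lg (x y w : Euc n) :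
    fderiv ℝ (C.lg x) y w ∈ G.T (C.pr x) ∧
    fderiv ℝ (Exp G (C.pr x)) (C.lg x y) (fderiv ℝ (C.lg x) y w) = fderiv ℝ C.pr y w := by
  have hd : HasFDerivAt (C.lg x) (fderiv ℝ (C.lg x) y) y :=
    ((C.contDiff_lg x).differentiable (by simp) y).hasFDerivAt
  constructor
  · have h1 : HasFDerivAt (fun y => G.P (C.pr x) (C.lg x y))
        ((G.P (C.pr x)).comp (fderiv ℝ (C.lg x) y)) y := (G.P (C.pr x)).hasFDerivAt.comp y hd
    have h2 : (fun y => G.P (C.pr x) (C.lg x y)) = C.lg x :=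
      funext fun y => (P_eq_self G (C.pr_mem x)).1 (C.lg_mem x y)
    rw [h2] at h1
    rw [P_eq_self G (C.pr_mem x)]
    exact congrArg (fun L : Euc n →L[ℝ] Euc N => L w) (h1.unique hd)
  · have h1 := (((Crest.Agent.R241.D3c.contDiffAt_Exp' G (C.pr_mem x)
      (C.lg_mem x y)).differentiableAt (by simp)).hasFDerivAt).comp y hd
    have h2 : Exp G (C.pr x) ∘ C.lg x = C.pr := funext fun y => C.Exp_lg x y
    rw [h2] at h1
    exact congrArg (fun L : Euc n →L[ℝ] Euc N => L w) (h1.unique (C.diff_pr y).hasFDerivAt)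

lemma norm_fderiv_lg_le (ha : 0 ≤ a) (x y w : Euc n) :
    ‖fderiv ℝ (C.lg x) y w‖ ≤ ‖fderiv ℝ C.pr y w‖ := by
  rw [← (C.fderiv_Exp_lg x y w).2]
  exact Crest.Agent.R241.D3c.le_norm_fderiv_Exp ha G (C.pr_mem x) (C.lg_mem x y)
    (C.fderiv_Exp_lg x y w).1

/-- length bound for curves -/
lemma lg_sub_le_of_deriv (ha : 0 ≤ a) (x : Euc n) {c c' : ℝ → Euc n} {s t L : ℝ} (hst : s ≤ t)
    (hc : ∀ u ∈ Icc s t, HasDerivWithinAt c (c' u) (Icc s t) u)
    (hL : ∀ u ∈ Icc s t, ‖fderiv ℝ C.pr (c u) (c' u)‖ ≤ L) :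
    ‖C.lg x (c t) - C.lg x (c s)‖ ≤ L * (t - s) := by
  have h := (convex_Icc s t).norm_image_sub_le_of_norm_hasDerivWithin_le
    (f := fun u => C.lg x (c u)) (f' := fun u => fderiv ℝ (C.lg x) (c u) (c' u)) (C := L)
    (fun u hu => ((C.contDiff_lg x).differentiable (by simp) _).hasFDerivAt.comp_hasDerivWithinAt
      u (hc u hu))
    (fun u hu => (C.norm_fderiv_lg_le ha x _ _).trans (hL u hu)) (left_mem_Icc.2 hst)
    (right_mem_Icc.2 hst)
  rwa [Real.norm_eq_abs, abs_of_nonneg (sub_nonneg.2 hst)] at h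

lemma dd_le_of_deriv (ha : 0 ≤ a) {c c' : ℝ → Euc n} {s t L : ℝ} (hst : s ≤ t)
    (hc : ∀ u ∈ Icc s t, HasDerivWithinAt c (c' u) (Icc s t) u)
    (hL : ∀ u ∈ Icc s t, ‖fderiv ℝ C.pr (c u) (c' u)‖ ≤ L) :
    C.dd (c s) (c t) ≤ L * (t - s) := by
  have h := C.lg_sub_le_of_deriv ha (c s) hst hc hL
  rwa [lg_self, sub_zero] at h

lemma lg_sub_le (ha : 0 ≤ a) (x y z : Euc n) : ‖C.lg x y - C.lg x z‖ ≤ C.dd y z := by
  have h := C.lg_sub_le_of_deriv ha x (c := C.gd y (C.lg y z)) (L := C.dd y z) zero_le_one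
    (fun u _ => (C.hasDerivAt_gd _ _ u).hasDerivWithinAt) (fun u _ => by
      rw [C.fderiv_pr_deriv_gd (C.lg_mem y z), C.norm_vel (C.lg_mem y z)]; exact le_rfl)
  rw [norm_sub_rev]
  simpa [gd, C.ex_lg, C.ex_zero] using h
lemma dd_triangle (ha : 0 ≤ a) (x y z : Euc n) : C.dd x z ≤ C.dd x y + C.dd y z := by
  have h := C.lg_sub_le ha x y z
  have h1 := norm_sub_norm_le (C.lg x z) (C.lg x y)
  rw [norm_sub_rev] at h1
  unfold dd at *
  linarith
lemma abs_dd_sub_le (ha : 0 ≤ a) (x y z : Euc n) : |C.dd x y - C.dd x z| ≤ C.dd y z :=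
  (abs_norm_sub_norm_le _ _).trans (C.lg_sub_le ha x y z)
lemma dd_zero (x : Euc n) : C.dd 0 x = ‖x‖ := by
  obtain ⟨A, hA⟩ := C.lg_zero
  rw [dd, hA, A.norm_map]
lemma norm_sub_le_dd (ha : 0 ≤ a) (x y : Euc n) : ‖x - y‖ ≤ C.dd x y := by
  obtain ⟨A, hA⟩ := C.lg_zero
  have h := C.lg_sub_le ha 0 x y
  rwa [hA, hA, ← map_sub, A.norm_map] at h
lemma norm_le_of_dd (ha : 0 ≤ a) (x y : Euc n) : ‖y‖ ≤ ‖x‖ + C.dd x y := by
  have h := C.dd_triangle ha 0 x y
  rwa [dd_zero, dd_zero] at h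
lemma isCompact_dd (ha : 0 ≤ a) (x : Euc n) (R : ℝ) : IsCompact {y | C.dd x y ≤ R} := by
  have hc : Continuous fun y => C.dd x y := (C.contDiff_lg x).continuous.norm
  refine (isCompact_closedBall (0 : Euc n) (‖x‖ + R)).of_isClosed_subset
    (isClosed_le hc continuous_const) ?_
  intro y hy
  have h := C.norm_le_of_dd ha x y
  have h1 : C.dd x y ≤ R := hy
  rw [mem_closedBall_zero_iff]
  linarith
/-- on bounded sets `dd` is dominated by the Euclidean distance -/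
lemma dd_le_on_ball (ha : 0 ≤ a) (R : ℝ) :
    ∃ K : ℝ, 0 < K ∧ ∀ x y : Euc n, ‖x‖ ≤ R → ‖y‖ ≤ R → C.dd x y ≤ K * ‖x - y‖ := by
  obtain ⟨K, hK⟩ := (isCompact_closedBall (0 : Euc n) R).exists_bound_of_continuousOn
    (C.pr_smooth.continuous_fderiv (by simp)).continuousOn
  refine ⟨max K 1, lt_max_of_lt_right one_pos, fun x y hx hy => ?_⟩
  have h := C.dd_le_of_deriv ha (c := fun u : ℝ => x + u • (y - x)) (c' := fun _ => y - x)
    (L := max K 1 * ‖x - y‖) zero_le_one (fun u _ => by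
      simpa using (((hasDerivAt_id u).smul_const (y - x)).const_add x).hasDerivWithinAt)
    (fun u hu => by
      have h1 : x + u • (y - x) ∈ Metric.closedBall (0 : Euc n) R :=
        (convex_closedBall _ _).add_smul_sub_mem (mem_closedBall_zero_iff.2 hx)
          (mem_closedBall_zero_iff.2 hy) hu
      rw [norm_sub_rev x y]
      exact ((fderiv ℝ C.pr _).le_opNorm _).trans
        (mul_le_mul_of_nonneg_right ((hK _ h1).trans (le_max_left _ _)) (norm_nonneg _)))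
  simpa using h

/-! ### deck transformations -/

variable {g g' : Euc n → Euc n}

lemma deck_dk {x x' : Euc n} (h : C.pr x = C.pr x') : C.Deck (C.dk x x') := by
  have hsm : ∀ x x' : Euc n, ContDiff ℝ ∞ (C.dk x x') := fun x x' =>
    (C.contDiff_ex x').comp (C.contDiff_lg x)
  have hpr : ∀ y, C.pr (C.dk x x' y) = C.pr y := fun y => by
    rw [dk, C.pr_ex x' _ (h ▸ C.lg_mem x y), ← h, Exp_lg]
  have hex : ∀ y, ∀ v ∈ G.T (C.pr y), C.dk x x' (C.ex y v) = C.ex (C.dk x x' y) v := by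
    intro y v hv
    have h1 := C.lift_unique (s := univ) isPreconnected_univ
      (c := fun t => C.dk x x' (C.gd y v t)) (c' := C.gd (C.dk x x' y) v)
      ((hsm x x').continuous.comp (C.contDiff_gd_t _ _).continuous).continuousOn
      (C.contDiff_gd_t _ _).continuous.continuousOn (fun t _ => by
        rw [hpr, C.pr_gd hv, C.pr_gd (by rw [hpr]; exact hv), hpr])
      (mem_univ 0) (by simp [gd_zero]) (mem_univ 1)
    simpa [gd] using h1
  refine ⟨hsm x x', hpr, fun y z => ?_, hex, ?_⟩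
  · conv_lhs => rw [← C.ex_lg y z, hex y _ (C.lg_mem y z)]
    exact C.lg_ex _ _ (by rw [hpr]; exact C.lg_mem y z)
  · refine Function.bijective_iff_has_inverse.2 ⟨C.dk x' x, fun y => ?_, fun y => ?_⟩
    · rw [dk, dk, C.lg_ex x' _ (h ▸ C.lg_mem x y), C.ex_lg]
    · rw [dk, dk, C.lg_ex x _ (h ▸ C.lg_mem x' y), C.ex_lg]
lemma dk_self (x x' : Euc n) : C.dk x x' x = x' := by
  rw [dk, lg_self, C.ex_zero]
lemma deck_id : C.Deck id :=
  ⟨contDiff_id, fun _ => rfl, fun _ _ => rfl, fun _ _ _ => rfl, Function.bijective_id⟩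
lemma Deck.comp (h : C.Deck g) (h' : C.Deck g') : C.Deck (g ∘ g') :=
  ⟨h.smooth.comp h'.smooth, fun x => (h.pr_eq _).trans (h'.pr_eq x),
    fun x y => (h.lg_eq _ _).trans (h'.lg_eq x y), fun x v hv => by
      show g (g' (C.ex x v)) = C.ex (g (g' x)) v
      rw [h'.ex_eq x v hv, h.ex_eq _ v (by rw [h'.pr_eq]; exact hv)], h.bij.comp h'.bij⟩
lemma Deck.dd_eq (h : C.Deck g) (x y : Euc n) : C.dd (g x) (g y) = C.dd x y := by
  rw [dd, h.lg_eq, dd]
lemma Deck.dir_eq (h : C.Deck g) (x y : Euc n) : C.dir (g x) (g y) = C.dir x y := by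
  rw [dir, h.lg_eq, dir]
lemma Deck.gd_eq (h : C.Deck g) (hv : v ∈ G.T (C.pr x)) (t : ℝ) :
    C.gd (g x) v t = g (C.gd x v t) :=
  (h.ex_eq x _ ((G.T _).smul_mem t hv)).symm
lemma Deck.vel_eq (h : C.Deck g) (x : Euc n) (v : Euc N) (t : ℝ) :
    C.vel (g x) v t = C.vel x v t := by
  rw [vel, h.pr_eq, vel]
lemma Deck.un (h : C.Deck g) : C.Un (g x) v ↔ C.Un x v := by
  rw [Un, h.pr_eq, Un]
lemma Deck.ext (h : C.Deck g) (h' : C.Deck g') (hx : g x = g' x) : g = g' :=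
  funext fun y => C.lift_unique (s := univ) isPreconnected_univ h.smooth.continuous.continuousOn
    h'.smooth.continuous.continuousOn (fun t _ => by rw [h.pr_eq, h'.pr_eq]) (mem_univ x) hx
    (mem_univ y)
lemma Deck.inv (h : C.Deck g) :
    ∃ g', C.Deck g' ∧ (∀ x, g' (g x) = x) ∧ ∀ x, g (g' x) = x := by
  have h1 := C.deck_dk (h.pr_eq 0)
  have h2 : C.dk (g 0) 0 ∘ g = id :=
    Deck.ext C (x := 0) (Deck.comp C h1 h) C.deck_id (C.dk_self _ _)
  refine ⟨_, h1, fun x => congrFun h2 x, fun x => ?_⟩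
  obtain ⟨y, rfl⟩ := h.bij.2 x
  exact congrArg g (congrFun h2 y)
/-- cocompactness -/
lemma exists_deck : ∃ D : ℝ, 0 < D ∧ ∀ x, ∃ g, C.Deck g ∧ ‖g x‖ ≤ D := by
  obtain ⟨D, hD⟩ := C.pr_surj
  refine ⟨max D 1, lt_max_of_lt_right one_pos, fun x => ?_⟩
  obtain ⟨x', h1, h2⟩ := hD _ (C.pr_mem x)
  exact ⟨_, C.deck_dk h2.symm, by rw [dk_self]; exact h1.trans (le_max_left _ _)⟩
lemma exists_lift {p : Euc N} (hp : p ∈ S) : ∃ x, C.pr x = p := by
  obtain ⟨D, hD⟩ := C.pr_surj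
  obtain ⟨x, -, h⟩ := hD p hp
  exact ⟨x, h⟩
lemma exists_un {q : TT N} (hq : q ∈ US G) : ∃ x, C.pr x = q.1 ∧ C.Un x q.2 := by
  obtain ⟨x, h⟩ := C.exists_lift hq.1.1
  exact ⟨x, h, by rw [Un, h]; exact hq⟩

end Crest.Agent.N221.Cov
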