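import Crest.Agent.N221.C.Two

/-!
Row 221, block C: asymptotic directions and Busemann functions.
-/

set_option autoImplicit false
set_option linter.unusedSectionVars false
set_option linter.unusedVariables false

open MeasureTheory Set Filter Topology
open scoped ContDiff RealInnerProductSpace ENNReal
open Crest.GeometryTopology.Submanifold
open Crest.Agent.R241.DDefs Crest.Agent.R241.D2
open Crest.Agent.R208.J Crest.Agent.R208.L

noncomputable section

namespace Crest.Agent.N221.Cov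

variable {n N : ℕ} {a : ℝ} {S : Set (Euc N)} {G : Geo n N (-(a ^ 2)) S} (C : Cov G)

namespace BdyAux

lemma tendsto_exp {a : ℝ} (ha : 0 < a) {α : Type*} {l : Filter α} {f : α → ℝ}
    (hf : Tendsto f l atTop) (K : ℝ) : Tendsto (fun t => K * Real.exp (-(a * f t))) l (𝓝 0) := by
  simpa using (Real.tendsto_exp_neg_atTop_nhds_zero.comp (hf.const_mul_atTop ha)).const_mul K

lemma tendsto_sub (d : ℝ) : Tendsto (fun t : ℝ => t - d) atTop atTop :=
  tendsto_atTop_add_const_right atTop (-d) tendsto_id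

/-- continuity from a rate of convergence -/
lemma cont_of_rate {Z E : Type*} [TopologicalSpace Z] [PseudoMetricSpace E] {A : Set Z}
    {f : Z → E} {F : ℝ → Z → E} {d : Z → ℝ} (hd : Continuous d) {b : ℝ → ℝ}
    (hb : Tendsto b atTop (𝓝 0))
    (hF : ∀ z ∈ A, ∀ t, d z + 1 ≤ t → ContinuousAt (F t) z ∧ dist (F t z) (f z) ≤ b (t - d z)) :
    ContinuousOn f A := by
  refine continuousOn_of_locally_uniform_approx_of_continuousWithinAt fun z hz u hu => ?_
  obtain ⟨ε, hε, hu⟩ := Metric.mem_uniformity_dist.1 hu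
  obtain ⟨R, hR⟩ := eventually_atTop.1 (hb.eventually_lt_const hε)
  have h1 := le_max_left R 1
  have h2 := le_max_right R 1
  refine ⟨A ∩ {w | d w < d z + 1}, inter_mem_nhdsWithin _
    (hd.continuousAt.eventually_lt_const (by linarith)), F (d z + 1 + max R 1),
    (hF z hz _ (by linarith)).1.continuousWithinAt, fun w hw => hu ?_⟩
  have h3 : d w < d z + 1 := hw.2
  rw [dist_comm]
  exact (hF w hw.1 _ (by linarith)).2.trans_lt (hR _ (by linarith))

lemma norm_sub_le_of_inner {u w : Euc N} (hu : ‖u‖ ≤ 1) (hw : ‖w‖ ≤ 1) {E : ℝ} (hE : 0 ≤ E)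
    (h : 1 - ⟪u, w⟫ ≤ 4 * E ^ 2) : ‖u - w‖ ≤ 3 * E := by
  refine (pow_le_pow_iff_left₀ (norm_nonneg _) (by positivity) two_ne_zero).1 ?_
  rw [norm_sub_sq_real]
  nlinarith [norm_nonneg u, norm_nonneg w]

end BdyAux

open BdyAux

variable (ha : 0 < a) {x y : Euc n} {v : Euc N}
include ha

lemma one_sub_inner_le (p P Q : Euc n) {L : ℝ} (h : C.dd P Q + L ≤ C.dd p P + C.dd p Q) :
    1 - ⟪C.dir p P, C.dir p Q⟫ ≤ 4 * Real.exp (-(a * L)) := by
  have h1 := C.gromov_exp ha p P Q
  have h2 : Real.exp (a * C.dd P Q) ≤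
      Real.exp (-(a * L)) * Real.exp (a * (C.dd p P + C.dd p Q)) := by
    rw [← Real.exp_add]
    exact Real.exp_le_exp.2 (by nlinarith)
  refine le_of_mul_le_mul_right ?_ (Real.exp_pos (a * (C.dd p P + C.dd p Q)))
  linarith

lemma dir_sub_le (p P Q : Euc n) {L : ℝ} (h : C.dd P Q + 2 * L ≤ C.dd p P + C.dd p Q) :
    ‖C.dir p P - C.dir p Q‖ ≤ 3 * Real.exp (-(a * L)) := by
  refine norm_sub_le_of_inner (C.norm_dir_le _ _) (C.norm_dir_le _ _) (Real.exp_pos _).le ?_
  convert C.one_sub_inner_le ha p P Q h using 2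
  rw [sq, ← Real.exp_add]
  congr 1
  ring

lemma le_dd_gd (hv : C.Un x v) (y : Euc n) (t : ℝ) : t - C.dd x y ≤ C.dd y (C.gd x v t) := by
  have h1 := C.dd_triangle ha.le x y (C.gd x v t)
  rw [hv.dd_gd_zero] at h1
  linarith [le_abs_self t]

lemma ne_gd (hv : C.Un x v) {y : Euc n} {t : ℝ} (ht : C.dd x y < t) : y ≠ C.gd x v t := by
  intro h
  have h1 := C.le_dd_gd ha hv y t
  rw [← h, C.dd_self] at h1
  linarith

/-- `gromov_exp` at `y` for `gd x v t`, `gd x v t'` -/
lemma dir_cauchy (hv : C.Un x v) (y : Euc n) {t t' : ℝ} (ht : C.dd x y < t) (htt : t ≤ t') :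
    ‖C.dir y (C.gd x v t) - C.dir y (C.gd x v t')‖ ≤
      3 * Real.exp (-(a * (t - C.dd x y))) := by
  refine C.dir_sub_le ha _ _ _ ?_
  rw [hv.dd_gd, abs_of_nonneg (by linarith)]
  linarith [C.le_dd_gd ha hv y t, C.le_dd_gd ha hv y t']

lemma tendsto_asy (hv : C.Un x v) (y : Euc n) :
    Tendsto (fun t => C.dir y (C.gd x v t)) atTop (𝓝 (C.asy x v y)) := by
  refine CauchySeq.tendsto_limUnder (Metric.cauchySeq_iff'.2 fun ε hε => ?_)
  obtain ⟨t, h1, h2⟩ := (((tendsto_exp ha (tendsto_sub (C.dd x y)) 3).eventually_lt_const hε).and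
    (eventually_gt_atTop (C.dd x y))).exists
  refine ⟨t, fun t' ht' => ?_⟩
  rw [dist_comm, dist_eq_norm]
  exact (C.dir_cauchy ha hv y h2 ht').trans_lt h1

lemma asy_rate (hv : C.Un x v) (y : Euc n) {t : ℝ} (ht : C.dd x y < t) :
    ‖C.dir y (C.gd x v t) - C.asy x v y‖ ≤ 3 * Real.exp (-(a * (t - C.dd x y))) :=
  le_of_tendsto ((C.tendsto_asy ha hv y).const_sub _).norm
    ((eventually_ge_atTop t).mono fun _ h => C.dir_cauchy ha hv y ht h)

lemma un_asy (hv : C.Un x v) (y : Euc n) : C.Un y (C.asy x v y) :=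
  (isClosed_US G).mem_of_tendsto (tendsto_const_nhds.prodMk_nhds (C.tendsto_asy ha hv y))
    ((eventually_gt_atTop (C.dd x y)).mono fun _ h => C.un_dir (C.ne_gd ha hv h))

lemma asy_self (hv : C.Un x v) (t : ℝ) : C.asy x v (C.gd x v t) = C.vel x v t :=
  tendsto_nhds_unique (C.tendsto_asy ha hv _) (tendsto_const_nhds.congr'
    ((eventually_gt_atTop t).mono fun _ h => (hv.dir_gd C h).symm))

lemma antitone_bus (hv : C.Un x v) (y : Euc n) : Antitone fun t => C.dd y (C.gd x v t) - t := by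
  intro t t' h
  have h1 := C.dd_triangle ha.le y (C.gd x v t) (C.gd x v t')
  rw [hv.dd_gd, abs_of_nonneg (by linarith)] at h1
  simp only
  linarith

lemma tendsto_bus (hv : C.Un x v) (y : Euc n) :
    Tendsto (fun t => C.dd y (C.gd x v t) - t) atTop (𝓝 (C.bus x v y)) := by
  refine tendsto_nhds_limUnder ⟨_, tendsto_atTop_ciInf (C.antitone_bus ha hv y) ⟨-C.dd x y, ?_⟩⟩
  rintro _ ⟨t, rfl⟩
  simp only
  linarith [C.le_dd_gd ha hv y t]

/-- `t ↦ dd y (gd x v t) - t` is antitone with derivative `c(t) - 1`, `1 - c(t) ≤ K e^{-2at}`;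
or `gromov`-type two-sided estimate -/
lemma bus_rate (hv : C.Un x v) (y : Euc n) {t : ℝ} (ht : C.dd x y + 1 ≤ t) :
    0 ≤ C.dd y (C.gd x v t) - t - C.bus x v y ∧
    C.dd y (C.gd x v t) - t - C.bus x v y ≤
      2 / a * Real.exp (2 * a) * Real.exp (-(2 * a * (t - C.dd x y))) := by
  refine ⟨sub_nonneg.2 ((C.antitone_bus ha hv y).le_of_tendsto (C.tendsto_bus ha hv y) t), ?_⟩
  have hd := C.dd_nonneg x y
  set g : ℝ → ℝ := fun s => C.dd y (C.gd x v s) - s - 2 / a * Real.exp (-(2 * a * (s - C.dd x y)))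
    with hg
  have hder : ∀ s, t ≤ s → HasDerivAt g (-⟪C.dir (C.gd x v s) y, C.vel x v s⟫ - 1 -
      2 / a * (Real.exp (-(2 * a * (s - C.dd x y))) * -(2 * a * 1))) s := fun s hs =>
    ((C.hasDerivAt_dd hv.mem (C.ne_gd ha hv (by linarith)).symm).sub (hasDerivAt_id s)).sub
      ((((hasDerivAt_id s).sub_const _).const_mul (2 * a)).neg.exp.const_mul _)
  have hmono : MonotoneOn g (Ici t) := by
    refine monotoneOn_of_deriv_nonneg (convex_Ici t)
      (fun s hs => (hder s hs).continuousAt.continuousWithinAt)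
      (fun s hs => (hder s (interior_subset hs)).differentiableAt.differentiableWithinAt)
      fun s hs => ?_
    have hs' : t ≤ s := interior_subset hs
    rw [(hder s hs').deriv]
    have h1 := hv.dir_gd' C (show (0 : ℝ) < s by linarith)
    rw [C.gd_zero] at h1
    have h2 := C.one_sub_inner_le ha (C.gd x v s) y x (L := 2 * (s - C.dd x y)) (by
      rw [C.dd_comm (C.gd x v s) y, C.dd_comm (C.gd x v s) x, C.dd_comm y x, hv.dd_gd_zero]
      linarith [C.le_dd_gd ha hv y s, le_abs_self s])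
    rw [h1, inner_neg_right, show a * (2 * (s - C.dd x y)) = 2 * a * (s - C.dd x y) by ring] at h2
    have h3 : 2 / a * (Real.exp (-(2 * a * (s - C.dd x y))) * -(2 * a * 1)) =
        -(4 * Real.exp (-(2 * a * (s - C.dd x y)))) := by
      field_simp
      norm_num
    rw [h3]
    linarith
  have hlim : Tendsto g atTop (𝓝 (C.bus x v y - 0)) := (C.tendsto_bus ha hv y).sub
    (tendsto_exp (by positivity) (tendsto_sub (C.dd x y)) _)
  have h1 : g t ≤ C.bus x v y - 0 := ge_of_tendsto hlim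
    ((eventually_ge_atTop t).mono fun s hs => hmono self_mem_Ici hs hs)
  have h2 : 1 ≤ Real.exp (2 * a) := Real.one_le_exp (by positivity)
  have h3 : 0 ≤ 2 / a * Real.exp (-(2 * a * (t - C.dd x y))) := by positivity
  simp only [hg] at h1
  nlinarith

lemma abs_bus_sub_le (hv : C.Un x v) (y z : Euc n) :
    |C.bus x v y - C.bus x v z| ≤ C.dd y z := by
  refine le_of_tendsto' ((C.tendsto_bus ha hv y).sub (C.tendsto_bus ha hv z)).abs fun t => ?_
  rw [sub_sub_sub_cancel_right, C.dd_comm y (C.gd x v t), C.dd_comm z]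
  exact C.abs_dd_sub_le ha.le _ _ _

lemma bus_gd (hv : C.Un x v) (t : ℝ) : C.bus x v (C.gd x v t) = -t :=
  tendsto_nhds_unique (C.tendsto_bus ha hv _) (tendsto_const_nhds.congr'
    ((eventually_ge_atTop t).mono fun s h => by
      simp only
      rw [hv.dd_gd, abs_of_nonneg (by linarith)]
      ring))

/-- asymptotic geodesics converge exponentially (limit of `tail`) -/
lemma asy_tail (hv : C.Un x v) (y : Euc n) {s : ℝ} (hs : 0 ≤ s) :
    C.dd (C.gd y (C.asy x v y) s) (C.gd x v (s - C.bus x v y)) ≤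
      2 / a * Real.exp (-(a * s)) * Real.sinh (a * C.dd x y) := by
  have hg := C.contDiff_gd.continuous
  have h1 : Tendsto (fun T => C.gd y (C.dir y (C.gd x v T)) s) atTop
      (𝓝 (C.gd y (C.asy x v y) s)) :=
    (hg.tendsto (y, C.asy x v y, s)).comp (tendsto_const_nhds.prodMk_nhds
      ((C.tendsto_asy ha hv y).prodMk_nhds tendsto_const_nhds))
  have h2 : Tendsto (fun T => s + (T - C.dd y (C.gd x v T))) atTop (𝓝 (s - C.bus x v y)) :=
    ((C.tendsto_bus ha hv y).const_sub s).congr fun T => by ring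
  have h3 := ((C.contDiff_gd_t x v).continuous.tendsto _).comp h2
  refine le_of_tendsto ((C.continuous_dd.tendsto (_, _)).comp (h1.prodMk_nhds h3)) ?_
  filter_upwards [eventually_ge_atTop (s + C.dd x y)] with T hT
  have hd := C.dd_nonneg x y
  exact (C.tail ha hv y (by linarith) le_rfl hs (by linarith [C.le_dd_gd ha hv y T])).2.2

lemma asy_bdd (hv : C.Un x v) (y : Euc n) :
    ∃ B, ∀ s, 0 ≤ s → C.dd (C.gd y (C.asy x v y) s) (C.gd x v s) ≤ B := by
  refine ⟨2 / a * Real.sinh (a * C.dd x y) + |C.bus x v y|, fun s hs => ?_⟩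
  have h1 := C.dd_triangle ha.le (C.gd y (C.asy x v y) s) (C.gd x v (s - C.bus x v y)) (C.gd x v s)
  rw [hv.dd_gd, sub_sub_cancel] at h1
  have h2 := C.asy_tail ha hv y hs
  have h3 : Real.exp (-(a * s)) ≤ 1 := Real.exp_le_one_iff.2 (by nlinarith)
  have h4 : 0 ≤ 2 / a * Real.sinh (a * C.dd x y) :=
    mul_nonneg (by positivity) (Real.sinh_nonneg_iff.2 (mul_nonneg ha.le (C.dd_nonneg x y)))
  nlinarith

/-- uniqueness: a unit vector at `y` whose ray stays at bounded distance is `asy` (`h2_exp`) -/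
lemma eq_asy (hv : C.Un x v) {u : Euc N} (hu : C.Un y u) {B : ℝ}
    (h : ∀ s, 0 ≤ s → C.dd (C.gd y u s) (C.gd x v s) ≤ B) : u = C.asy x v y := by
  obtain ⟨B', h'⟩ := C.asy_bdd ha hv y
  have hu' := C.un_asy ha hv y
  rw [← sub_eq_zero, ← norm_le_zero_iff]
  refine ge_of_tendsto (tendsto_exp ha (tendsto_sub ((B + B') / 2)) 3) ?_
  filter_upwards [eventually_gt_atTop 0] with r hr
  have h1 := C.dir_sub_le ha y (C.gd y u r) (C.gd y (C.asy x v y) r) (L := r - (B + B') / 2) (by
    have h2 := C.dd_triangle ha.le (C.gd y u r) (C.gd x v r) (C.gd y (C.asy x v y) r)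
    rw [C.dd_comm (C.gd x v r)] at h2
    rw [hu.dd_gd_zero, hu'.dd_gd_zero, abs_of_pos hr]
    linarith [h r hr.le, h' r hr.le])
  rwa [hu.dir_gd_zero C hr, hu'.dir_gd_zero C hr] at h1

lemma asy_asy (hv : C.Un x v) (y z : Euc n) : C.asy y (C.asy x v y) z = C.asy x v z := by
  have hu := C.un_asy ha hv y
  obtain ⟨B, h⟩ := C.asy_bdd ha hv y
  obtain ⟨B', h'⟩ := C.asy_bdd ha hu z
  exact C.eq_asy ha hv (C.un_asy ha hu z) (B := B' + B) fun s hs =>
    (C.dd_triangle ha.le _ _ _).trans (add_le_add (h' s hs) (h s hs))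

lemma bus_asy (hv : C.Un x v) (y z : Euc n) :
    C.bus y (C.asy x v y) z = C.bus x v z - C.bus x v y := by
  have hu := C.un_asy ha hv y
  have h1 := C.tendsto_bus ha hu z
  have h2 := (C.tendsto_bus ha hv z).comp (tendsto_sub (C.bus x v y))
  have h3 : Tendsto (fun s => C.dd z (C.gd y (C.asy x v y) s) -
      C.dd z (C.gd x v (s - C.bus x v y))) atTop (𝓝 0) := by
    refine squeeze_zero_norm' ?_ (tendsto_exp ha tendsto_id (2 / a * Real.sinh (a * C.dd x y)))
    filter_upwards [eventually_ge_atTop 0] with s hs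
    refine (C.abs_dd_sub_le ha.le _ _ _).trans ((C.asy_tail ha hv y hs).trans_eq ?_)
    simp only [id]
    ring
  have h4 := tendsto_nhds_unique h1 (((h3.add h2).sub_const (C.bus x v y)).congr fun s => by
    simp only [Function.comp]
    ring)
  rw [h4, zero_add]

lemma vel_asy (hv : C.Un x v) (y : Euc n) (s : ℝ) :
    C.vel y (C.asy x v y) s = C.asy x v (C.gd y (C.asy x v y) s) := by
  rw [← C.asy_self ha (C.un_asy ha hv y), C.asy_asy ha hv]

lemma bus_gd_asy (hv : C.Un x v) (y : Euc n) (s : ℝ) :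
    C.bus x v (C.gd y (C.asy x v y) s) = C.bus x v y - s := by
  have h := C.bus_gd ha (C.un_asy ha hv y) s
  rw [C.bus_asy ha hv] at h
  linarith

omit ha in
lemma continuous_dd_13 : Continuous fun z : Euc n × Euc N × Euc n => C.dd z.1 z.2.2 := by
  have h := C.continuous_dd.comp (f := fun z : Euc n × Euc N × Euc n => (z.1, z.2.2)) (by fun_prop)
  simpa only [Function.comp_def] using h

omit ha in
lemma continuous_pair (t : ℝ) :
    Continuous fun z : Euc n × Euc N × Euc n => (z.2.2, C.gd z.1 z.2.1 t) :=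
  continuous_snd.snd.prodMk (C.contDiff_gd.continuous.comp
    (continuous_fst.prodMk (continuous_snd.fst.prodMk continuous_const)))

lemma continuousOn_asy : ContinuousOn (fun z : Euc n × Euc N × Euc n => C.asy z.1 z.2.1 z.2.2)
    {z | C.Un z.1 z.2.1} := by
  refine cont_of_rate (F := fun t z => C.dir z.2.2 (C.gd z.1 z.2.1 t))
    (d := fun z => C.dd z.1 z.2.2)
    C.continuous_dd_13
    (tendsto_exp ha tendsto_id 3) fun z hz t ht => ⟨?_, ?_⟩
  · have h1 := (C.contDiffAt_dir (C.ne_gd ha hz (show C.dd z.1 z.2.2 < t by linarith))).continuousAt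
    have h2 := ContinuousAt.comp (f := fun z : Euc n × Euc N × Euc n => (z.2.2, C.gd z.1 z.2.1 t))
      (x := z) h1 (C.continuous_pair t).continuousAt
    simpa only [Function.comp_def] using h2
  · rw [dist_eq_norm]
    exact C.asy_rate ha hz _ (by linarith)

lemma continuousOn_bus : ContinuousOn (fun z : Euc n × Euc N × Euc n => C.bus z.1 z.2.1 z.2.2)
    {z | C.Un z.1 z.2.1} := by
  refine cont_of_rate (F := fun t z => C.dd z.2.2 (C.gd z.1 z.2.1 t) - t)
    (d := fun z => C.dd z.1 z.2.2)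
    C.continuous_dd_13
    (tendsto_exp (show 0 < 2 * a by positivity) tendsto_id (2 / a * Real.exp (2 * a)))
    fun z hz t ht => ⟨?_, ?_⟩
  · have h2 := C.continuous_dd.comp (C.continuous_pair t)
    simp only [Function.comp_def] at h2
    exact (h2.sub continuous_const).continuousAt
  · obtain ⟨h1, h2⟩ := C.bus_rate ha hz z.2.2 ht
    rw [Real.dist_eq, abs_of_nonneg h1]
    exact h2

/-- the gradient of the Busemann function (locally uniform limit of `hasFDerivAt_dd`,
`hasFDerivAt_of_tendstoLocallyUniformlyOn`) -/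
lemma hasFDerivAt_bus (hv : C.Un x v) (y : Euc n) :
    HasFDerivAt (C.bus x v) (-(innerSL ℝ (C.asy x v y)).comp (fderiv ℝ C.pr y)) y := by
  have hd : Tendsto (fun p : ℝ × Euc n => p.1 - C.dd x p.2) (atTop ×ˢ 𝓝 y) atTop :=
    tendsto_fst.atTop_add (((C.continuous_dd_right x).tendsto y).comp tendsto_snd).neg
  refine hasFDerivAt_of_tendstoUniformlyOnFilter (l := (atTop : Filter ℝ))
    (f := fun t y => C.dd y (C.gd x v t) - t)
    (f' := fun t y => -(innerSL ℝ (C.dir y (C.gd x v t))).comp (fderiv ℝ C.pr y))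
    (g' := fun y => -(innerSL ℝ (C.asy x v y)).comp (fderiv ℝ C.pr y)) ?_ ?_
    (Eventually.of_forall fun y => C.tendsto_bus ha hv y)
  · rw [Metric.tendstoUniformlyOnFilter_iff]
    intro ε hε
    have h1 : Tendsto (fun p : ℝ × Euc n => ‖fderiv ℝ C.pr p.2‖) (atTop ×ˢ 𝓝 y)
        (𝓝 ‖fderiv ℝ C.pr y‖) :=
      (((C.pr_smooth.continuous_fderiv (by simp)).tendsto y).comp tendsto_snd).norm
    have h2 := (tendsto_exp ha hd 3).mul h1
    rw [zero_mul] at h2
    filter_upwards [h2.eventually_lt_const hε, hd.eventually_gt_atTop 0] with p h3 h4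
    rw [dist_neg_neg, dist_comm, dist_eq_norm, ← ContinuousLinearMap.sub_comp, ← map_sub]
    refine lt_of_le_of_lt ((ContinuousLinearMap.opNorm_comp_le _ _).trans ?_) h3
    rw [innerSL_apply_norm]
    exact mul_le_mul_of_nonneg_right (C.asy_rate ha hv _ (by linarith)) (norm_nonneg _)
  · filter_upwards [hd.eventually_gt_atTop 0] with p h4
    simp only [fun y => C.dd_comm y (C.gd x v p.1)]
    exact (C.hasFDerivAt_dd (C.ne_gd ha hv (by linarith))).sub_const _

omit ha in
lemma Deck.asy_eq {g : Euc n → Euc n} (h : C.Deck g) (hv : C.Un x v) (y : Euc n) :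
    C.asy (g x) v (g y) = C.asy x v y := by
  unfold asy
  simp only [h.gd_eq C hv.mem, h.dir_eq]
omit ha in
lemma Deck.bus_eq {g : Euc n → Euc n} (h : C.Deck g) (hv : C.Un x v) (y : Euc n) :
    C.bus (g x) v (g y) = C.bus x v y := by
  unfold bus
  simp only [h.gd_eq C hv.mem, h.dd_eq]

/-- directions from a convergent bounded sequence of points to far points of a ray -/
lemma tendsto_dir_seq (hv : C.Un x v) {m : ℕ → Euc n} {m₀ : Euc n} {T : ℕ → ℝ}
    (hm : Tendsto m atTop (𝓝 m₀)) (hT : Tendsto T atTop atTop) :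
    Tendsto (fun k => C.dir (m k) (C.gd x v (T k))) atTop (𝓝 (C.asy x v m₀)) := by
  have h1 : Continuous fun y => C.asy x v y :=
    (C.continuousOn_asy ha).comp_continuous (f := fun y => (x, v, y)) (by fun_prop) fun _ => hv
  have hd : Tendsto (fun k => T k - C.dd x (m k)) atTop atTop :=
    hT.atTop_add (((C.continuous_dd_right x).tendsto m₀).comp hm).neg
  have h2 : Tendsto (fun k => C.dir (m k) (C.gd x v (T k)) - C.asy x v (m k)) atTop (𝓝 0) := by
    refine squeeze_zero_norm' ?_ (tendsto_exp ha hd 3)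
    filter_upwards [hd.eventually_gt_atTop 0] with k hk
    exact C.asy_rate ha hv _ (by linarith)
  simpa using h2.add ((h1.tendsto m₀).comp hm)

/-- VISIBILITY: two different directions at `x` are joined by a geodesic passing at controlled
distance (`gromov_exp`, `thin`, `tail`, compactness as in `join`) -/
lemma visib {w : Euc N} (hv : C.Un x v) (hw : C.Un x w) {c : ℝ} (hc : ⟪v, w⟫ ≤ c) (hc1 : c < 1) :
    ∃ (m : Euc n) (u : Euc N), C.Un m u ∧ u = C.asy x v m ∧ -u = C.asy x w m ∧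
      Real.cosh (a * C.dd x m) ≤ 1 + Real.log (4 / (1 - c)) * (4 / (1 - c)) /
        (1 - Real.exp (-(2 * a))) := by
  set K := 1 + Real.log (4 / (1 - c)) * (4 / (1 - c)) / (1 - Real.exp (-(2 * a))) with hK
  have hq : 0 < 4 / (1 - c) := div_pos (by norm_num) (by linarith)
  set l := Real.log (4 / (1 - c)) / a with hl
  have hal : a * l = Real.log (4 / (1 - c)) := by rw [hl]; field_simp
  -- the approximate points
  have step : ∀ T : ℝ, |l| + 1 ≤ T → ∃ m, Real.cosh (a * C.dd x m) ≤ K ∧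
      C.dir m (C.gd x w T) = -C.dir m (C.gd x v T) := by
    intro T hT
    have hl1 := le_abs_self l
    have hT0 : 0 < T := by linarith [abs_nonneg l]
    set P := C.gd x w T with hP
    set Q := C.gd x v T with hQ
    have hxP : C.dd x P = T := by rw [hP, hw.dd_gd_zero, abs_of_pos hT0]
    have hxQ : C.dd x Q = T := by rw [hQ, hv.dd_gd_zero, abs_of_pos hT0]
    have hD : T + T ≤ C.dd P Q + l := by
      have h1 := C.gromov_exp ha x P Q
      rw [hxP, hxQ, hP, hQ, hw.dir_gd_zero C hT0, hv.dir_gd_zero C hT0, real_inner_comm] at h1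
      have h2 : Real.exp (a * (T + T)) ≤ Real.exp (a * (C.dd P Q + l)) := by
        rw [mul_add a (C.dd P Q), Real.exp_add (a * C.dd P Q), hal, Real.exp_log hq,
          ← mul_div_assoc, le_div_iff₀ (by linarith)]
        nlinarith [Real.exp_pos (a * (T + T))]
      exact le_of_mul_le_mul_left (Real.exp_le_exp.1 h2) ha
    have hPx : C.dd P x = T := by rw [C.dd_comm, hxP]
    have hPQ : C.Un P (C.dir P Q) := C.un_dir fun h => by
      rw [h, C.dd_self] at hD
      linarith
    refine ⟨C.gd P (C.dir P Q) T, ?_, ?_⟩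
    · have h1 := C.thin ha x P Q (l := l) (by linarith [abs_nonneg l]) (by linarith) (by linarith)
      rwa [hPx, hal, Real.exp_log hq] at h1
    · have h1 := hPQ.dir_gd' C hT0
      have h2 := hPQ.dir_gd C (show T < C.dd P Q by linarith)
      rw [C.gd_zero] at h1
      rw [C.gd_dir] at h2
      rw [h1, h2]
  choose m hm1 hm2 using fun k : ℕ => step (k + (|l| + 1)) (by linarith [k.cast_nonneg (α := ℝ)])
  have hcd : Continuous fun y => Real.cosh (a * C.dd x y) :=
    Real.continuous_cosh.comp (continuous_const.mul (C.continuous_dd_right x))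
  have hcpt : IsCompact {y | Real.cosh (a * C.dd x y) ≤ K} := by
    refine (C.isCompact_dd ha.le x (2 * K / a)).of_isClosed_subset
      (isClosed_le hcd continuous_const) fun y hy => ?_
    have h1 : Real.cosh (a * C.dd x y) ≤ K := hy
    rw [Real.cosh_eq] at h1
    rw [mem_ofPred_eq, le_div_iff₀ ha]
    linarith [Real.add_one_le_exp (a * C.dd x y), Real.exp_pos (-(a * C.dd x y))]
  obtain ⟨m₀, hm₀, φ, hφ, hlim⟩ := hcpt.tendsto_subseq hm1
  have hT : Tendsto (fun k => (φ k : ℝ) + (|l| + 1)) atTop atTop :=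
    tendsto_atTop_add_const_right _ _ (tendsto_natCast_atTop_atTop.comp hφ.tendsto_atTop)
  refine ⟨m₀, _, C.un_asy ha hv m₀, rfl, ?_, hm₀⟩
  exact tendsto_nhds_unique ((C.tendsto_dir_seq ha hv hlim hT).neg.congr fun k => (hm2 (φ k)).symm)
    (C.tendsto_dir_seq ha hw hlim hT)

end Crest.Agent.N221.Cov
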