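import Crest.Agent.N221.Defs

/-!
Row 221, block C (helper85): the universal cover.

Points of the cover are points of `Euc n` (normal coordinates at a base point).  `C.pr` is the
covering map onto `S`, `C.ex x v` the lifted exponential map (`v ∈ T_{pr x} S ⊆ ℝ^N`), `C.lg x y`
its inverse, `C.dd x y = ‖lg x y‖` the Riemannian distance of the cover.  All local geometry is read
downstairs through `pr`.  Files: `Ex` (existence), `Base` (metric, lifts, deck maps), `Loc`
(uniform local structure), `Cat` (comparison inequalities), `Two` (two geodesics), `Polar`, `Vol`,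
`Lps`, `Bdy` (asymptotic directions, Busemann functions).
-/

set_option autoImplicit false

open MeasureTheory Set Filter Topology
open scoped ContDiff RealInnerProductSpace ENNReal
open Crest.GeometryTopology.Submanifold
open Crest.Agent.R241.DDefs Crest.Agent.R241.D2
open Crest.Agent.R208.J Crest.Agent.R208.L

noncomputable section

namespace Crest.Agent.N221

/-- The universal cover in normal coordinates. -/
structure Cov {n N : ℕ} {κ : ℝ} {S : Set (Euc N)} (G : Geo n N κ S) where
  pr : Euc n → Euc N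
  ex : Euc n → Euc N → Euc n
  lg : Euc n → Euc n → Euc N
  pr_smooth : ContDiff ℝ ∞ pr
  ex_smooth : ContDiff ℝ ∞ (fun z : Euc n × Euc N => ex z.1 z.2)
  lg_smooth : ContDiff ℝ ∞ (fun z : Euc n × Euc n => lg z.1 z.2)
  pr_mem : ∀ x, pr x ∈ S
  pr_surj : ∃ D : ℝ, ∀ p ∈ S, ∃ x, ‖x‖ ≤ D ∧ pr x = p
  pr_exp : ∀ x w, ‖w‖ ≤ ‖fderiv ℝ pr x w‖
  lg_mem : ∀ x y, lg x y ∈ G.T (pr x)
  pr_ex : ∀ x, ∀ v ∈ G.T (pr x), pr (ex x v) = Exp G (pr x) v
  ex_zero : ∀ x, ex x 0 = x
  ex_lg : ∀ x y, ex x (lg x y) = y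
  lg_ex : ∀ x, ∀ v ∈ G.T (pr x), lg x (ex x v) = v
  lg_zero : ∃ A : Euc n →ₗᵢ[ℝ] Euc N, ∀ x, lg 0 x = A x

namespace Cov

variable {n N : ℕ} {κ : ℝ} {S : Set (Euc N)} {G : Geo n N κ S} (C : Cov G)

/-- the distance of the cover -/
def dd (x y : Euc n) : ℝ := ‖C.lg x y‖

/-- unit vector at `x` pointing to `y` (`0` for `x = y`) -/
def dir (x y : Euc n) : Euc N := ‖C.lg x y‖⁻¹ • C.lg x y

/-- `v` is a unit tangent vector at `x` -/
def Un (x : Euc n) (v : Euc N) : Prop := (C.pr x, v) ∈ US G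

/-- the geodesic of the cover with initial data `(x, v)` -/
def gd (x : Euc n) (v : Euc N) (t : ℝ) : Euc n := C.ex x (t • v)

/-- its velocity -/
def vel (x : Euc n) (v : Euc N) (t : ℝ) : Euc N := (fl G ((C.pr x, v), t)).2

/-- the deck transformation taking `x` to `x'` (meaningful for `pr x = pr x'`) -/
def dk (x x' y : Euc n) : Euc n := C.ex x' (C.lg x y)

/-- `g` is a deck transformation -/
structure Deck (g : Euc n → Euc n) : Prop where
  smooth : ContDiff ℝ ∞ g
  pr_eq : ∀ x, C.pr (g x) = C.pr x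
  lg_eq : ∀ x y, C.lg (g x) (g y) = C.lg x y
  ex_eq : ∀ x, ∀ v ∈ G.T (C.pr x), g (C.ex x v) = C.ex (g x) v
  bij : Function.Bijective g

/-- Riemannian volume of the cover -/
def vol : Measure (Euc n) :=
  (volume : Measure (Euc n)).withDensity fun x =>
    ENNReal.ofReal (Crest.Agent.R241.AF.jac (fderiv ℝ C.pr x))

/-- unit vector at `y` asymptotic to the geodesic `(x, v)` -/
def asy (x : Euc n) (v : Euc N) (y : Euc n) : Euc N :=
  limUnder atTop fun t : ℝ => C.dir y (C.gd x v t)

/-- Busemann function of the geodesic `(x, v)` -/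
def bus (x : Euc n) (v : Euc N) (y : Euc n) : ℝ :=
  limUnder atTop fun t : ℝ => C.dd y (C.gd x v t) - t

end Cov

/-- existence of the cover -/
def CovS : Prop := ∀ (n N : ℕ) (a : ℝ) (S : Set (Euc N)) (G : Geo n N (-(a ^ 2)) S),
  Hyp n N a S → Nonempty (Cov G)

end Crest.Agent.N221
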